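import Crest.Agent.Lib.Computability.Rat

/-!
The function `phi x = e * exp (-1/x)` (zero for `x ≤ 0`): computable bounds on all derivatives
and computable rational approximations at rational points; and the smooth step built from it
without any division.
-/

set_option autoImplicit false

open scoped ContDiff

namespace Crest.Agent.R126

open Crest.Agent.Lib.Computability

/-- `x⁻ᵐ exp (-1/x)`, glued with zero. -/
noncomputable def glueM (m : ℕ) (x : ℝ) : ℝ := (x⁻¹) ^ m * expNegInvGlue x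

theorem glueM_contDiff (m : ℕ) : ContDiff ℝ ∞ (glueM m) := by
  have := expNegInvGlue.contDiff_polynomial_eval_inv_mul (n := ⊤) (Polynomial.X ^ m)
  have e : (fun x : ℝ => Polynomial.eval x⁻¹ (Polynomial.X ^ m : Polynomial ℝ) * expNegInvGlue x)
      = glueM m := by
    funext y; simp [glueM]
  rwa [e] at this

theorem glueM_deriv (m : ℕ) :
    deriv (glueM m) = fun x => glueM (m + 2) x - (m : ℝ) * glueM (m + 1) x := by
  funext x
  have h := (expNegInvGlue.hasDerivAt_polynomial_eval_inv_mul (Polynomial.X ^ m) x).deriv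
  have e : (fun x : ℝ => Polynomial.eval x⁻¹ (Polynomial.X ^ m : Polynomial ℝ) * expNegInvGlue x)
      = glueM m := by
    funext y; simp [glueM]
  rw [e] at h
  rw [h]
  cases m with
  | zero => simp [glueM]
  | succ k =>
    simp only [glueM, Polynomial.derivative_X_pow_succ, Polynomial.eval_mul, Polynomial.eval_pow,
      Polynomial.eval_X, Polynomial.eval_sub, Polynomial.eval_C]
    push_cast
    ring

theorem glueM_abs_le (m : ℕ) (x : ℝ) : |glueM m x| ≤ (m.factorial : ℝ) := by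
  unfold glueM expNegInvGlue
  split_ifs with hx
  · simp
  · push Not at hx
    have hy : 0 ≤ x⁻¹ := inv_nonneg.2 hx.le
    rw [abs_of_nonneg (by positivity)]
    have h := Real.pow_div_factorial_le_exp x⁻¹ hy m
    have hf : (0 : ℝ) < m.factorial := by exact_mod_cast m.factorial_pos
    rw [div_le_iff₀ hf] at h
    rw [Real.exp_neg]
    have he := Real.exp_pos x⁻¹
    rw [← div_eq_mul_inv, div_le_iff₀ he]
    linarith

theorem glueM_iteratedDeriv_le (k : ℕ) : ∀ (m : ℕ) (x : ℝ),
    |iteratedDeriv k (glueM m) x| ≤ (((m + 2 * k + 1) ^ k * (m + 2 * k).factorial : ℕ) : ℝ) := by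
  induction k with
  | zero => intro m x; simpa using glueM_abs_le m x
  | succ k ih =>
    intro m x
    have hc : ∀ j, ContDiffAt ℝ (k : ℕ) (glueM j) x := fun j =>
      ((glueM_contDiff j).of_le (by exact_mod_cast le_top)).contDiffAt
    rw [iteratedDeriv_succ', glueM_deriv,
      iteratedDeriv_fun_sub (hc _) (contDiffAt_const.mul (hc _)), iteratedDeriv_const_mul _ (hc _)]
    have h1 := ih (m + 2) x
    have h2 := ih (m + 1) x
    have key : (m + 2 + 2 * k + 1) ^ k * (m + 2 + 2 * k).factorial +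
        m * ((m + 1 + 2 * k + 1) ^ k * (m + 1 + 2 * k).factorial) ≤
        (m + 2 * (k + 1) + 1) ^ (k + 1) * (m + 2 * (k + 1)).factorial := by
      have e1 : m + 2 + 2 * k = m + 2 * (k + 1) := by ring
      rw [e1]
      have a1 : (m + 1 + 2 * k + 1) ^ k ≤ (m + 2 * (k + 1) + 1) ^ k :=
        Nat.pow_le_pow_left (by omega) k
      have a2 : (m + 1 + 2 * k).factorial ≤ (m + 2 * (k + 1)).factorial :=
        Nat.factorial_le (by omega)
      calc _ ≤ (m + 2 * (k + 1) + 1) ^ k * (m + 2 * (k + 1)).factorial +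
            m * ((m + 2 * (k + 1) + 1) ^ k * (m + 2 * (k + 1)).factorial) := by gcongr
        _ = (m + 1) * ((m + 2 * (k + 1) + 1) ^ k * (m + 2 * (k + 1)).factorial) := by ring
        _ ≤ (m + 2 * (k + 1) + 1) *
            ((m + 2 * (k + 1) + 1) ^ k * (m + 2 * (k + 1)).factorial) := by gcongr; omega
        _ = _ := by ring
    have key' := (Nat.cast_le (α := ℝ)).2 key
    refine le_trans ?_ key'
    rw [Nat.cast_add, Nat.cast_mul m]
    refine (abs_sub _ _).trans (add_le_add h1 ?_)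
    rw [abs_mul, Nat.abs_cast]
    exact mul_le_mul_of_nonneg_left h2 (Nat.cast_nonneg _)

/-- The basic flat function, normalised by `phi 1 = 1`. -/
noncomputable def phi (x : ℝ) : ℝ := Real.exp 1 * expNegInvGlue x

theorem phi_eq : phi = fun x => Real.exp 1 * glueM 0 x := by
  funext x; simp [phi, glueM]

theorem phi_contDiff : ContDiff ℝ ∞ phi := by
  rw [phi_eq]; exact contDiff_const.mul (glueM_contDiff 0)

theorem phi_of_nonpos {x : ℝ} (hx : x ≤ 0) : phi x = 0 := by
  simp [phi, expNegInvGlue.zero_of_nonpos hx]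

theorem phi_of_pos {x : ℝ} (hx : 0 < x) : phi x = Real.exp (1 - x⁻¹) := by
  simp [phi, expNegInvGlue, not_le.2 hx, sub_eq_add_neg, Real.exp_add]

theorem phi_nonneg (x : ℝ) : 0 ≤ phi x :=
  mul_nonneg (Real.exp_pos _).le (expNegInvGlue.nonneg x)

theorem phi_one : phi 1 = 1 := by simp [phi_of_pos]

theorem one_le_phi {x : ℝ} (hx : 1 ≤ x) : 1 ≤ phi x := by
  rw [phi_of_pos (by linarith)]
  exact Real.one_le_exp (by have := inv_le_one_of_one_le₀ hx; linarith)

theorem phi_le_one {x : ℝ} (hx : x ≤ 1) : phi x ≤ 1 := by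
  rcases le_or_gt x 0 with h | h
  · simp [phi_of_nonpos h]
  · rw [phi_of_pos h]
    exact Real.exp_le_one_iff.2 (by have := (one_le_inv₀ h).2 hx; linarith)

/-- The bound on the derivatives of `phi`. -/
def phiB (k : ℕ) : ℕ := 3 * ((2 * k + 1) ^ k * (2 * k).factorial)

theorem phiB_primrec : Primrec phiB :=
  Primrec.nat_mul.comp (Primrec.const 3)
    (Primrec.nat_mul.comp (nat_pow.comp Primrec.nat_double_succ Primrec.id)
      (nat_factorial.comp Primrec.nat_double))

theorem phi_bound (k i : ℕ) (hi : i ≤ k) (x : ℝ) : ‖iteratedFDeriv ℝ i phi x‖ ≤ phiB k := by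
  rw [norm_iteratedFDeriv_eq_norm_iteratedDeriv, phi_eq, iteratedDeriv_const_mul_field,
    Real.norm_eq_abs, abs_mul, abs_of_pos (Real.exp_pos 1)]
  have h := glueM_iteratedDeriv_le i 0 x
  have h3 : Real.exp 1 ≤ 3 := (Real.exp_one_lt_d9.trans (by norm_num)).le
  have hm : (0 + 2 * i + 1) ^ i * (0 + 2 * i).factorial ≤ (2 * k + 1) ^ k * (2 * k).factorial := by
    apply Nat.mul_le_mul
    · calc (0 + 2 * i + 1) ^ i ≤ (2 * k + 1) ^ i := Nat.pow_le_pow_left (by omega) _
        _ ≤ (2 * k + 1) ^ k := Nat.pow_le_pow_right (by omega) hi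
    · exact Nat.factorial_le (by omega)
  have hm' := (Nat.cast_le (α := ℝ)).2 hm
  unfold phiB
  rw [Nat.cast_mul 3]
  exact mul_le_mul (by simpa using h3) (h.trans hm') (abs_nonneg _) (by positivity)

theorem phi_lipschitz (x y : ℝ) : |phi x - phi y| ≤ phiB 1 * |x - y| := by
  have := Convex.norm_image_sub_le_of_norm_fderiv_le (𝕜 := ℝ) (f := phi) (s := Set.univ)
    (C := phiB 1) (x := y) (y := x)
    (fun z _ => (phi_contDiff.differentiable (by simp)).differentiableAt)
    (fun z _ => by rw [← norm_iteratedFDeriv_one]; exact phi_bound 1 1 le_rfl z)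
    convex_univ trivial trivial
  simpa using this

theorem exp_approx (y : ℝ) (N : ℕ) (hN : 0 < N) (hy : |y| ≤ N) :
    |Real.exp y - (1 + y / N) ^ N| ≤ Real.exp y * y ^ 2 / N := by
  have hN' : (0 : ℝ) < N := by exact_mod_cast hN
  have hu : |y / N| ≤ 1 := by rw [abs_div, Nat.abs_cast, div_le_one hN']; exact hy
  obtain ⟨hu1, hu2⟩ := abs_le.1 hu
  set u := y / N with hudef
  have hyu : y = N * u := by rw [hudef]; field_simp
  have e1 : Real.exp y = Real.exp u ^ N := by rw [hyu, Real.exp_nat_mul]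
  have up : (1 + u) ^ N ≤ Real.exp y := by
    rw [e1]; exact pow_le_pow_left₀ (by linarith) (by linarith [Real.add_one_le_exp u]) _
  have e2 : Real.exp (-y) = Real.exp (-u) ^ N := by
    rw [hyu, ← Real.exp_nat_mul]; ring_nf
  have lo : (1 - u) ^ N ≤ Real.exp (-y) := by
    rw [e2]; exact pow_le_pow_left₀ (by linarith) (by linarith [Real.add_one_le_exp (-u)]) _
  have ber : 1 + N * (-(u ^ 2)) ≤ (1 + -(u ^ 2)) ^ N :=
    one_add_mul_le_pow (by nlinarith) N
  have h3 : (1 + -(u ^ 2)) ^ N = (1 + u) ^ N * (1 - u) ^ N := by rw [← mul_pow]; ring_nf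
  have h4 : (1 + u) ^ N * (1 - u) ^ N ≤ (1 + u) ^ N * Real.exp (-y) :=
    mul_le_mul_of_nonneg_left lo (pow_nonneg (by linarith) _)
  have h5 : 1 - N * u ^ 2 ≤ (1 + u) ^ N * Real.exp (-y) := by linarith
  have h6 : Real.exp y * (1 - N * u ^ 2) ≤ (1 + u) ^ N := by
    have := mul_le_mul_of_nonneg_left h5 (Real.exp_pos y).le
    rwa [mul_comm ((1 + u) ^ N), ← mul_assoc, ← Real.exp_add, add_neg_cancel, Real.exp_zero,
      one_mul] at this
  rw [abs_of_nonneg (by linarith)]
  have h7 : Real.exp y * y ^ 2 / N = Real.exp y * (N * u ^ 2) := by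
    rw [hyu]; field_simp
  rw [h7]; linarith

/-- Rational approximation of `phi` at a rational point. -/
def phiE (a : ℚ × ℕ) : ℚ :=
  if a.1 ≤ 0 then 0 else
    (1 + (1 - a.1⁻¹) / ((3 * (a.2 + 1) * (a.1.den + 1) ^ 2 : ℕ) : ℚ)) ^
      (3 * (a.2 + 1) * (a.1.den + 1) ^ 2)

theorem phiE_primrec : Primrec phiE := by
  have hN : Primrec (fun a : ℚ × ℕ => 3 * (a.2 + 1) * (a.1.den + 1) ^ 2) :=
    Primrec.nat_mul.comp (Primrec.nat_mul.comp (Primrec.const 3) (Primrec.succ.comp Primrec.snd))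
      (nat_pow.comp (Primrec.succ.comp (rat_den.comp Primrec.fst)) (Primrec.const 2))
  exact Primrec.ite (rat_le.comp Primrec.fst (Primrec.const 0)) (Primrec.const 0)
    (rat_pow.comp (rat_add.comp (Primrec.const 1)
      (rat_div.comp (rat_sub.comp (Primrec.const 1) (rat_inv.comp Primrec.fst))
        (rat_natCast.comp hN))) hN)

theorem phi_approx (q : ℚ) (n : ℕ) : |phi q - (phiE (q, n) : ℝ)| ≤ 1 / ((n : ℝ) + 1) := by
  unfold phiE
  by_cases hq : q ≤ 0
  · have : (q : ℝ) ≤ 0 := by exact_mod_cast hq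
    simp only [hq, if_true, phi_of_nonpos this]
    simp only [Rat.cast_zero, sub_self, abs_zero]
    positivity
  · simp only [hq, if_false]
    push Not at hq
    have hq' : (0 : ℝ) < q := by exact_mod_cast hq
    rw [phi_of_pos hq']
    set N : ℕ := 3 * (n + 1) * (q.den + 1) ^ 2 with hN
    have hNpos : 0 < N := by positivity
    have hinv : (q : ℝ)⁻¹ ≤ q.den := by
      have hnum : (1 : ℝ) ≤ q.num := by exact_mod_cast Rat.num_pos.2 hq
      have hd : (0 : ℝ) < q.den := by exact_mod_cast q.pos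
      rw [Rat.cast_def, inv_div, div_le_iff₀ (by linarith)]
      nlinarith
    have hinv0 : 0 < (q : ℝ)⁻¹ := inv_pos.2 hq'
    have hy : |1 - (q : ℝ)⁻¹| ≤ (q.den : ℝ) + 1 := by
      rw [abs_le]; constructor <;> nlinarith [Nat.cast_nonneg (α := ℝ) q.den]
    have hNr : (N : ℝ) = 3 * ((n : ℝ) + 1) * ((q.den : ℝ) + 1) ^ 2 := by rw [hN]; push_cast; ring
    have hd0 : (0 : ℝ) ≤ q.den := Nat.cast_nonneg _
    have hn0 : (0 : ℝ) ≤ n := Nat.cast_nonneg _
    have hyN : |1 - (q : ℝ)⁻¹| ≤ N := by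
      rw [hNr]; refine hy.trans ?_; nlinarith [mul_nonneg hn0 (sq_nonneg ((q.den : ℝ) + 1))]
    have h := exp_approx (1 - (q : ℝ)⁻¹) N hNpos hyN
    push_cast
    refine h.trans ?_
    have h3 : Real.exp (1 - (q : ℝ)⁻¹) ≤ 3 :=
      (Real.exp_le_exp.2 (by linarith)).trans (Real.exp_one_lt_d9.trans (by norm_num)).le
    have h4 : (1 - (q : ℝ)⁻¹) ^ 2 ≤ ((q.den : ℝ) + 1) ^ 2 := by
      rw [← sq_abs]; exact pow_le_pow_left₀ (abs_nonneg _) hy 2
    rw [hNr, div_le_div_iff₀ (by positivity) (by positivity)]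
    have h5 : Real.exp (1 - (q : ℝ)⁻¹) * (1 - (q : ℝ)⁻¹) ^ 2 ≤ 3 * ((q.den : ℝ) + 1) ^ 2 :=
      mul_le_mul h3 h4 (sq_nonneg _) (by norm_num)
    nlinarith

/-- A smooth step: `0` for `x ≤ 0`, `1` for `x ≥ 1`, with values in `[0, 1]`. -/
noncomputable def step (x : ℝ) : ℝ := 1 - phi (1 - phi x)

theorem step_contDiff : ContDiff ℝ ∞ step :=
  contDiff_const.sub (phi_contDiff.comp (contDiff_const.sub phi_contDiff))

theorem step_of_nonpos {x : ℝ} (hx : x ≤ 0) : step x = 0 := by
  simp [step, phi_of_nonpos hx, phi_one]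

theorem step_of_one_le {x : ℝ} (hx : 1 ≤ x) : step x = 1 := by
  have := one_le_phi hx
  simp [step, phi_of_nonpos (show 1 - phi x ≤ 0 by linarith)]

theorem step_nonneg (x : ℝ) : 0 ≤ step x := by
  have := phi_le_one (x := 1 - phi x) (by linarith [phi_nonneg x])
  simp only [step]; linarith

theorem step_le_one (x : ℝ) : step x ≤ 1 := by
  have := phi_nonneg (1 - phi x)
  simp only [step]; linarith

end Crest.Agent.R126
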