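import Crest.Prelude.Def_BoxFlow
import Crest.Agent.R126.Glue

/-!
A class of smooth scalar functions on space-time with computable derivative bounds and computable
values at rational points (both locally), closed under the ring operations, composition with
`phi` and partial derivatives.
-/

set_option autoImplicit false

open scoped ContDiff

namespace Crest.Agent.R126

open Crest.Agent.Lib.Computability Crest.AnalysisR.BoxFlow

/-- Space-time. -/
abbrev P : Type := ℝ × (Fin 3 → ℝ)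

/-- Rational space-time points. -/
abbrev PQ : Type := ℚ × (Fin 3 → ℚ)

/-- The real point of a rational point. -/
def pt (q : PQ) : P := ((q.1 : ℝ), ratPoint q.2)

/-- Locally computable bounds for all derivatives. -/
def Bdd (f : P → ℝ) : Prop :=
  ∀ R : ℝ, ∃ B : ℕ → ℕ, Primrec B ∧
    ∀ k i, i ≤ k → ∀ p : P, ‖p‖ ≤ R → ‖iteratedFDeriv ℝ i f p‖ ≤ B k

/-- Locally computable values at rational points. -/
def Apx (f : P → ℝ) : Prop :=
  ∀ R : ℝ, ∃ E : PQ × ℕ → ℚ, Primrec E ∧
    ∀ (q : PQ) (n : ℕ), ‖pt q‖ ≤ R → |f (pt q) - (E (q, n) : ℝ)| ≤ 1 / ((n : ℝ) + 1)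

/-- Effective smooth scalar functions. -/
structure Eff (f : P → ℝ) : Prop where
  smooth : ContDiff ℝ ∞ f
  bdd : Bdd f
  apx : Apx f

theorem natCast_le_infty (i : ℕ) : ((i : ℕ) : WithTop ℕ∞) ≤ ∞ := by exact_mod_cast le_top

theorem Bdd.exists_bound {f : P → ℝ} (h : Bdd f) (R : ℝ) :
    ∃ M : ℕ, ∀ p : P, ‖p‖ ≤ R → |f p| ≤ M := by
  obtain ⟨B, -, hB⟩ := h R
  exact ⟨B 0, fun p hp => by simpa using hB 0 0 le_rfl p hp⟩

theorem Eff.const (c : ℚ) : Eff (fun _ => (c : ℝ)) where
  smooth := contDiff_const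
  bdd := fun _ => ⟨fun _ => ⌈|(c : ℝ)|⌉₊, Primrec.const _, fun k i _ p _ => by
    rcases eq_or_ne i 0 with rfl | hi
    · rw [norm_iteratedFDeriv_zero, Real.norm_eq_abs]; exact Nat.le_ceil _
    · rw [iteratedFDeriv_const_of_ne hi]; simp⟩
  apx := fun _ => ⟨fun _ => c, Primrec.const _, fun q n _ => by
    simp only [sub_self, abs_zero]; positivity⟩

theorem bdd_clm (L : P →L[ℝ] ℝ) : Bdd L := by
  intro R
  refine ⟨fun _ => ⌈‖L‖ * R⌉₊ + ⌈‖L‖⌉₊, Primrec.const _, fun k i _ p hp => ?_⟩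
  have h1 := Nat.le_ceil (‖L‖ * R)
  have h2 := Nat.le_ceil ‖L‖
  have h3 : (0 : ℝ) ≤ ⌈‖L‖ * R⌉₊ := Nat.cast_nonneg _
  have h4 : (0 : ℝ) ≤ ⌈‖L‖⌉₊ := Nat.cast_nonneg _
  push_cast
  rcases i with _ | i
  · rw [norm_iteratedFDeriv_zero]
    have := (L.le_opNorm p).trans (mul_le_mul_of_nonneg_left hp (norm_nonneg _))
    linarith
  · rw [← norm_iteratedFDeriv_fderiv]
    have e : fderiv ℝ L = fun _ => L := by funext x; exact L.fderiv
    rw [e]
    rcases eq_or_ne i 0 with rfl | hi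
    · rw [norm_iteratedFDeriv_zero]; linarith
    · rw [iteratedFDeriv_const_of_ne hi]; simp only [Pi.zero_apply, norm_zero]; linarith

theorem Eff.time : Eff (fun p => p.1) where
  smooth := contDiff_fst
  bdd := bdd_clm (ContinuousLinearMap.fst ℝ ℝ (Fin 3 → ℝ))
  apx := fun _ => ⟨fun a => a.1.1, Primrec.fst.comp Primrec.fst, fun q n _ => by
    simp only [pt, sub_self, abs_zero]; positivity⟩

theorem Eff.coord (j : Fin 3) : Eff (fun p => p.2 j) where
  smooth := (contDiff_apply ℝ ℝ j).comp contDiff_snd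
  bdd := bdd_clm ((ContinuousLinearMap.proj j).comp (ContinuousLinearMap.snd ℝ ℝ (Fin 3 → ℝ)))
  apx := fun _ => ⟨fun a => a.1.2 j,
    Primrec.fin_app.comp (Primrec.snd.comp Primrec.fst) (Primrec.const j), fun q n _ => by
    simp only [pt, ratPoint, sub_self, abs_zero]; positivity⟩

theorem Eff.add {f g : P → ℝ} (hf : Eff f) (hg : Eff g) : Eff (fun p => f p + g p) where
  smooth := hf.smooth.add hg.smooth
  bdd := fun R => by
    obtain ⟨B, hB, hfB⟩ := hf.bdd R
    obtain ⟨C, hC, hgC⟩ := hg.bdd R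
    refine ⟨fun k => B k + C k, Primrec.nat_add.comp hB hC, fun k i hi p hp => ?_⟩
    have e := iteratedFDeriv_add_apply (i := i) (x := p)
      (hf.smooth.of_le (natCast_le_infty i)).contDiffAt
      (hg.smooth.of_le (natCast_le_infty i)).contDiffAt
    have e' : (fun p => f p + g p) = f + g := rfl
    rw [e', e]
    push_cast
    exact (norm_add_le _ _).trans (add_le_add (hfB k i hi p hp) (hgC k i hi p hp))
  apx := fun R => by
    obtain ⟨E, hE, hfE⟩ := hf.apx R
    obtain ⟨F, hF, hgF⟩ := hg.apx R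
    have hs : Primrec (fun a : PQ × ℕ => (a.1, 2 * a.2 + 1)) :=
      Primrec.fst.pair (Primrec.nat_double_succ.comp Primrec.snd)
    refine ⟨fun a => E (a.1, 2 * a.2 + 1) + F (a.1, 2 * a.2 + 1),
      rat_add.comp (hE.comp hs) (hF.comp hs), fun q n hq => ?_⟩
    have h1 := hfE q (2 * n + 1) hq
    have h2 := hgF q (2 * n + 1) hq
    have h3 : (1 : ℝ) / (((2 * n + 1 : ℕ) : ℝ) + 1) = 1 / ((n : ℝ) + 1) / 2 := by
      push_cast; field_simp; ring
    rw [h3] at h1 h2
    push_cast
    rw [abs_le] at *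
    constructor <;> linarith [h1.1, h1.2, h2.1, h2.2]

theorem Eff.mul {f g : P → ℝ} (hf : Eff f) (hg : Eff g) : Eff (fun p => f p * g p) where
  smooth := hf.smooth.mul hg.smooth
  bdd := fun R => by
    obtain ⟨B, hB, hfB⟩ := hf.bdd R
    obtain ⟨C, hC, hgC⟩ := hg.bdd R
    refine ⟨fun k => 2 ^ k * (B k * C k), Primrec.nat_mul.comp
      (nat_pow.comp (Primrec.const 2) Primrec.id) (Primrec.nat_mul.comp hB hC),
      fun k i hi p hp => ?_⟩
    refine (norm_iteratedFDeriv_mul_le hf.smooth hg.smooth p (natCast_le_infty i)).trans ?_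
    calc _ ≤ ∑ j ∈ Finset.range (i + 1), (i.choose j : ℝ) * ((B k : ℝ) * C k) := by
          refine Finset.sum_le_sum fun j hj => ?_
          rw [mul_assoc]
          refine mul_le_mul_of_nonneg_left ?_ (Nat.cast_nonneg _)
          have hj' : j ≤ k := by have := Finset.mem_range.1 hj; omega
          exact mul_le_mul (hfB k j hj' p hp) (hgC k (i - j) (by omega) p hp) (norm_nonneg _)
            (Nat.cast_nonneg _)
      _ = (2 : ℝ) ^ i * ((B k : ℝ) * C k) := by
          rw [← Finset.sum_mul]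
          congr 1
          exact_mod_cast Nat.sum_range_choose i
      _ ≤ _ := by
          push_cast
          exact mul_le_mul_of_nonneg_right (pow_le_pow_right₀ (by norm_num) hi) (by positivity)
  apx := fun R => by
    obtain ⟨E, hE, hfE⟩ := hf.apx R
    obtain ⟨F, hF, hgF⟩ := hg.apx R
    obtain ⟨M, hM⟩ := hf.bdd.exists_bound R
    obtain ⟨N, hN⟩ := hg.bdd.exists_bound R
    have hs : Primrec (fun a : PQ × ℕ => (a.1, (M + N + 1) * (a.2 + 1))) :=
      Primrec.fst.pair (Primrec.nat_mul.comp (Primrec.const _) (Primrec.succ.comp Primrec.snd))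
    refine ⟨fun a => E (a.1, (M + N + 1) * (a.2 + 1)) * F (a.1, (M + N + 1) * (a.2 + 1)),
      rat_mul.comp (hE.comp hs) (hF.comp hs), fun q n hq => ?_⟩
    have h1 := hfE q ((M + N + 1) * (n + 1)) hq
    have h2 := hgF q ((M + N + 1) * (n + 1)) hq
    have h3 := hM _ hq
    have h4 := hN _ hq
    set ε : ℝ := 1 / ((((M + N + 1) * (n + 1) : ℕ) : ℝ) + 1) with hε
    set a : ℝ := (E (q, (M + N + 1) * (n + 1)) : ℝ)
    set b : ℝ := (F (q, (M + N + 1) * (n + 1)) : ℝ)
    have hM0 : (0 : ℝ) ≤ M := Nat.cast_nonneg _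
    have hN0 : (0 : ℝ) ≤ N := Nat.cast_nonneg _
    have hn0 : (0 : ℝ) ≤ n := Nat.cast_nonneg _
    have hε0 : 0 ≤ ε := by positivity
    have hε1 : ε ≤ 1 := by
      rw [hε, div_le_one (by positivity)]
      linarith [Nat.cast_nonneg (α := ℝ) ((M + N + 1) * (n + 1))]
    have hε2 : ((M : ℝ) + N + 1) * ε ≤ 1 / ((n : ℝ) + 1) := by
      rw [hε, mul_one_div, div_le_div_iff₀ (by positivity) (by positivity)]
      push_cast
      linarith
    have hb : |b| ≤ N + 1 := by
      have := abs_sub_abs_le_abs_sub b (g (pt q))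
      rw [abs_sub_comm] at this
      linarith
    push_cast
    calc |f (pt q) * g (pt q) - a * b|
        = |f (pt q) * (g (pt q) - b) + (f (pt q) - a) * b| := by ring_nf
      _ ≤ |f (pt q)| * |g (pt q) - b| + |f (pt q) - a| * |b| := by
          rw [← abs_mul, ← abs_mul]; exact abs_add_le _ _
      _ ≤ M * ε + ε * (N + 1) := by gcongr
      _ = ((M : ℝ) + N + 1) * ε := by ring
      _ ≤ _ := hε2

theorem Eff.congr {f g : P → ℝ} (hf : Eff f) (h : ∀ p, f p = g p) : Eff g := by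
  have : f = g := funext h
  exact this ▸ hf

theorem Eff.neg {f : P → ℝ} (hf : Eff f) : Eff (fun p => -f p) :=
  ((Eff.const (-1)).mul hf).congr fun p => by simp

theorem Eff.sub {f g : P → ℝ} (hf : Eff f) (hg : Eff g) : Eff (fun p => f p - g p) :=
  (hf.add hg.neg).congr fun p => by ring

theorem Eff.zero : Eff (fun _ => 0) := (Eff.const 0).congr fun p => by simp

theorem Eff.one : Eff (fun _ => 1) := (Eff.const 1).congr fun p => by simp

theorem Eff.sum {ι : Type*} (s : Finset ι) {f : ι → P → ℝ} (hf : ∀ i ∈ s, Eff (f i)) :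
    Eff (fun p => ∑ i ∈ s, f i p) := by
  classical
  induction s using Finset.induction_on with
  | empty => simpa using Eff.zero
  | insert a s ha ih =>
    simp only [Finset.sum_insert ha]
    exact (hf a (Finset.mem_insert_self _ _)).add
      (ih fun i hi => hf i (Finset.mem_insert_of_mem hi))

theorem Eff.prod {ι : Type*} (s : Finset ι) {f : ι → P → ℝ} (hf : ∀ i ∈ s, Eff (f i)) :
    Eff (fun p => ∏ i ∈ s, f i p) := by
  classical
  induction s using Finset.induction_on with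
  | empty => simpa using Eff.one
  | insert a s ha ih =>
    simp only [Finset.prod_insert ha]
    exact (hf a (Finset.mem_insert_self _ _)).mul
      (ih fun i hi => hf i (Finset.mem_insert_of_mem hi))

theorem Eff.phi {f : P → ℝ} (hf : Eff f) : Eff (fun p => phi (f p)) where
  smooth := phi_contDiff.comp hf.smooth
  bdd := fun R => by
    obtain ⟨B, hB, hfB⟩ := hf.bdd R
    refine ⟨fun k => k.factorial * phiB k * (B k + 1) ^ k,
      Primrec.nat_mul.comp (Primrec.nat_mul.comp nat_factorial phiB_primrec)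
        (nat_pow.comp (Primrec.succ.comp hB) Primrec.id), fun k i hi p hp => ?_⟩
    have hD : (1 : ℝ) ≤ (B k : ℝ) + 1 := by linarith [Nat.cast_nonneg (α := ℝ) (B k)]
    have h := norm_iteratedFDeriv_comp_le (n := i) phi_contDiff hf.smooth (natCast_le_infty i) p
      (C := phiB k) (D := (B k : ℝ) + 1)
      (fun j hj => phi_bound k j (hj.trans hi) _)
      (fun j hj1 hj => ((hfB k j (hj.trans hi) p hp).trans (by linarith)).trans
        (le_self_pow₀ hD (by omega)))
    refine h.trans ?_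
    push_cast
    gcongr
  apx := fun R => by
    obtain ⟨E, hE, hfE⟩ := hf.apx R
    have hs : Primrec (fun a : PQ × ℕ => (a.1, 2 * (phiB 1 + 1) * (a.2 + 1))) :=
      Primrec.fst.pair (Primrec.nat_mul.comp (Primrec.const _) (Primrec.succ.comp Primrec.snd))
    refine ⟨fun a => phiE (E (a.1, 2 * (phiB 1 + 1) * (a.2 + 1)), 2 * a.2 + 1),
      phiE_primrec.comp ((hE.comp hs).pair (Primrec.nat_double_succ.comp Primrec.snd)),
      fun q n hq => ?_⟩
    have h1 := hfE q (2 * (phiB 1 + 1) * (n + 1)) hq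
    set r : ℚ := E (q, 2 * (phiB 1 + 1) * (n + 1))
    have h2 := phi_approx r (2 * n + 1)
    have h3 : (1 : ℝ) / (((2 * n + 1 : ℕ) : ℝ) + 1) = 1 / ((n : ℝ) + 1) / 2 := by
      push_cast; field_simp; ring
    rw [h3] at h2
    have h4 := phi_lipschitz (f (pt q)) r
    have hL : (0 : ℝ) ≤ phiB 1 := Nat.cast_nonneg _
    have hn0 : (0 : ℝ) ≤ n := Nat.cast_nonneg _
    have h5 : (phiB 1 : ℝ) * (1 / (((2 * (phiB 1 + 1) * (n + 1) : ℕ) : ℝ) + 1)) ≤
        1 / ((n : ℝ) + 1) / 2 := by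
      rw [mul_one_div, div_div, div_le_div_iff₀ (by positivity) (by positivity)]
      push_cast
      nlinarith
    have h6 := h4.trans ((mul_le_mul_of_nonneg_left h1 hL).trans h5)
    have h7 := abs_sub_le (R126.phi (f (pt q))) (R126.phi r) (phiE (r, 2 * n + 1) : ℝ)
    linarith

theorem Eff.step {f : P → ℝ} (hf : Eff f) : Eff (fun p => step (f p)) :=
  Eff.one.sub (Eff.one.sub hf.phi).phi

/-! ### Partial derivatives -/

/-- The partial derivative in the direction with index `d`. -/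
noncomputable def pd (d : Fin 4) (f : P → ℝ) : P → ℝ := fun p => fderiv ℝ f p (direction d)

theorem norm_direction_le (d : Fin 4) : ‖direction d‖ ≤ 1 := by
  unfold direction
  split_ifs
  · simp
  · simp [Prod.norm_def, Pi.norm_single]

theorem pd_contDiff {f : P → ℝ} (hf : ContDiff ℝ ∞ f) (d : Fin 4) : ContDiff ℝ ∞ (pd d f) :=
  (hf.fderiv_right (m := ∞) (by simp)).clm_apply contDiff_const

theorem norm_iteratedFDeriv_pd_le {f : P → ℝ} (hf : ContDiff ℝ ∞ f) (d : Fin 4) (i : ℕ) (p : P) :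
    ‖iteratedFDeriv ℝ i (pd d f) p‖ ≤ ‖iteratedFDeriv ℝ (i + 1) f p‖ := by
  have h := norm_iteratedFDeriv_clm_apply_const (f := fderiv ℝ f) (c := direction d) (x := p)
    (n := i) (hf.fderiv_right (m := ∞) (by simp)).contDiffAt (natCast_le_infty i)
  rw [norm_iteratedFDeriv_fderiv] at h
  exact h.trans (mul_le_of_le_one_left (norm_nonneg _) (norm_direction_le d))

/-- One finite difference approximates a directional derivative. -/
theorem fd_step {f : P → ℝ} (hf : ContDiff ℝ ∞ f) (p v : P) (hv : ‖v‖ ≤ 1) {M h : ℝ}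
    (hh : 0 < h) (hM : ∀ x ∈ Metric.closedBall p h, ‖iteratedFDeriv ℝ 2 f x‖ ≤ M) :
    |fderiv ℝ f p v - (f (p + h • v) - f p) / h| ≤ M * h := by
  have hM0 : 0 ≤ M := (norm_nonneg _).trans (hM p (Metric.mem_closedBall_self hh.le))
  have hd2 : Differentiable ℝ (fderiv ℝ f) :=
    (hf.fderiv_right (m := ∞) (by simp)).differentiable (by simp)
  have h1 : ∀ x ∈ Metric.closedBall p h, ‖fderiv ℝ f x - fderiv ℝ f p‖ ≤ M * h := by
    intro x hx
    have := Convex.norm_image_sub_le_of_norm_fderiv_le (𝕜 := ℝ) (f := fderiv ℝ f)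
      (s := Metric.closedBall p h) (C := M) (x := p) (y := x) (fun z _ => hd2 z)
      (fun z hz => by
        rw [← norm_iteratedFDeriv_one, norm_iteratedFDeriv_fderiv]; exact hM z hz)
      (convex_closedBall _ _) (Metric.mem_closedBall_self hh.le) hx
    exact this.trans (mul_le_mul_of_nonneg_left (by simpa [dist_eq_norm] using hx) hM0)
  have hn : ‖h • v‖ ≤ h := by
    rw [norm_smul, Real.norm_eq_abs, abs_of_pos hh]; exact mul_le_of_le_one_right hh.le hv
  have h2 := Convex.norm_image_sub_le_of_norm_fderiv_le' (𝕜 := ℝ) (f := f)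
    (s := Metric.closedBall p h) (C := M * h) (x := p) (y := p + h • v) (φ := fderiv ℝ f p)
    (fun z _ => (hf.differentiable (by simp)) z) h1 (convex_closedBall _ _)
    (Metric.mem_closedBall_self hh.le) (by simpa [dist_eq_norm] using hn)
  rw [add_sub_cancel_left, map_smul, smul_eq_mul, Real.norm_eq_abs] at h2
  have h3 := h2.trans (mul_le_mul_of_nonneg_left hn (by positivity))
  have e : fderiv ℝ f p v - (f (p + h • v) - f p) / h =
      -(f (p + h • v) - f p - h * fderiv ℝ f p v) / h := by field_simp; ring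
  rw [e, abs_div, abs_neg, abs_of_pos hh, div_le_iff₀ hh]
  exact h3

/-- The rational direction vectors. -/
def dirQ (d : Fin 4) : PQ :=
  if h : d = 0 then (1, 0) else (0, Pi.single (d.pred h) 1)

/-- Shift of a rational point along a direction. -/
def shift (q : PQ) (d : Fin 4) (h : ℚ) : PQ :=
  (q.1 + h * (dirQ d).1, fun j => q.2 j + h * (dirQ d).2 j)

theorem pt_shift (q : PQ) (d : Fin 4) (h : ℚ) :
    pt (shift q d h) = pt q + (h : ℝ) • direction d := by
  unfold pt shift dirQ direction ratPoint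
  split_ifs with hd
  · ext <;> simp
  · ext j
    · simp
    · simp [Pi.single_apply]
      split_ifs <;> simp

theorem shift_primrec {α : Type*} [Primcodable α] {q : α → PQ} {d : α → Fin 4} {h : α → ℚ}
    (hq : Primrec q) (hd : Primrec d) (hh : Primrec h) :
    Primrec (fun a => shift (q a) (d a) (h a)) := by
  have hdir : Primrec (fun a => dirQ (d a)) := (Primrec.dom_finite dirQ).comp hd
  refine Primrec.pair
    (rat_add.comp (Primrec.fst.comp hq) (rat_mul.comp hh (Primrec.fst.comp hdir))) ?_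
  refine Primrec.fin_curry.2 ?_
  exact rat_add.comp
    (Primrec.fin_app.comp (Primrec.snd.comp (hq.comp Primrec.fst)) Primrec.snd)
    (rat_mul.comp (hh.comp Primrec.fst)
      (Primrec.fin_app.comp (Primrec.snd.comp (hdir.comp Primrec.fst)) Primrec.snd))

/-- The arithmetic of one finite-difference step. -/
theorem fd_arith {D g1 g0 a1 a0 : ℝ} {M n : ℕ}
    (h0 : |D - (g1 - g0) / ((((2 * (n + 1) * (M + 1) : ℕ) : ℚ)⁻¹ : ℚ) : ℝ)| ≤
      M * ((((2 * (n + 1) * (M + 1) : ℕ) : ℚ)⁻¹ : ℚ) : ℝ))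
    (h1 : |g1 - a1| ≤ 1 / (((4 * (n + 1) * (2 * (n + 1) * (M + 1)) : ℕ) : ℝ) + 1))
    (h2 : |g0 - a0| ≤ 1 / (((4 * (n + 1) * (2 * (n + 1) * (M + 1)) : ℕ) : ℝ) + 1)) :
    |D - (a1 - a0) * ((2 * (n + 1) * (M + 1) : ℕ) : ℝ)| ≤ 1 / ((n : ℝ) + 1) := by
  have hn0 : (0 : ℝ) ≤ n := Nat.cast_nonneg _
  have hM0 : (0 : ℝ) ≤ M := Nat.cast_nonneg _
  rw [Rat.cast_inv, Rat.cast_natCast, div_inv_eq_mul] at h0
  rw [Nat.cast_mul (4 * (n + 1))] at h1 h2
  have hHv : ((2 * (n + 1) * (M + 1) : ℕ) : ℝ) = 2 * (n + 1) * (M + 1) := by push_cast; ring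
  set H : ℝ := ((2 * (n + 1) * (M + 1) : ℕ) : ℝ)
  have hH : 0 < H := by rw [hHv]; positivity
  have e1 : (M : ℝ) * H⁻¹ ≤ 1 / ((n : ℝ) + 1) / 2 := by
    rw [← div_eq_mul_inv, div_div, div_le_div_iff₀ hH (by positivity), hHv]
    nlinarith
  have e2 : 1 / (((4 * (n + 1) : ℕ) : ℝ) * H + 1) * H ≤ 1 / ((n : ℝ) + 1) / 4 := by
    rw [one_div_mul_eq_div, div_div, div_le_div_iff₀ (by positivity) (by positivity)]
    push_cast
    nlinarith
  have e3 : |(g1 - g0) * H - (a1 - a0) * H| ≤ 1 / ((n : ℝ) + 1) / 2 := by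
    have : (g1 - g0) * H - (a1 - a0) * H = (g1 - a1) * H - (g0 - a0) * H := by ring
    rw [this]
    refine (abs_sub _ _).trans ?_
    rw [abs_mul, abs_mul, abs_of_pos hH]
    have b1 := (mul_le_mul_of_nonneg_right h1 hH.le).trans e2
    have b2 := (mul_le_mul_of_nonneg_right h2 hH.le).trans e2
    linarith
  have := abs_sub_le D ((g1 - g0) * H) ((a1 - a0) * H)
  linarith

theorem stepQ_pos (n M : ℕ) : (0 : ℝ) < ((((2 * (n + 1) * (M + 1) : ℕ) : ℚ)⁻¹ : ℚ) : ℝ) := by
  rw [Rat.cast_inv, Rat.cast_natCast]; positivity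

theorem stepQ_le_one (n M : ℕ) : ((((2 * (n + 1) * (M + 1) : ℕ) : ℚ)⁻¹ : ℚ) : ℝ) ≤ 1 := by
  rw [Rat.cast_inv, Rat.cast_natCast]
  apply inv_le_one_of_one_le₀
  have : 1 ≤ 2 * (n + 1) * (M + 1) := Nat.succ_le_of_lt (by positivity)
  exact_mod_cast this

theorem Eff.pd {f : P → ℝ} (hf : Eff f) (d : Fin 4) : Eff (pd d f) where
  smooth := pd_contDiff hf.smooth d
  bdd := fun R => by
    obtain ⟨B, hB, hfB⟩ := hf.bdd R
    exact ⟨fun k => B (k + 1), hB.comp Primrec.succ, fun k i hi p hp =>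
      (norm_iteratedFDeriv_pd_le hf.smooth d i p).trans (hfB (k + 1) (i + 1) (by omega) p hp)⟩
  apx := fun R => by
    obtain ⟨B, -, hfB⟩ := hf.bdd (R + 1)
    obtain ⟨E, hE, hfE⟩ := hf.apx (R + 1)
    set M := B 2
    have hH : Primrec (fun a : PQ × ℕ => 2 * (a.2 + 1) * (M + 1)) :=
      Primrec.nat_mul.comp (Primrec.nat_double.comp (Primrec.succ.comp Primrec.snd))
        (Primrec.const _)
    have hm : Primrec (fun a : PQ × ℕ => 4 * (a.2 + 1) * (2 * (a.2 + 1) * (M + 1))) :=
      Primrec.nat_mul.comp (Primrec.nat_mul.comp (Primrec.const 4) (Primrec.succ.comp Primrec.snd))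
        hH
    refine ⟨fun a => (E (shift a.1 d ((2 * (a.2 + 1) * (M + 1) : ℕ) : ℚ)⁻¹,
        4 * (a.2 + 1) * (2 * (a.2 + 1) * (M + 1))) -
        E (a.1, 4 * (a.2 + 1) * (2 * (a.2 + 1) * (M + 1)))) * ((2 * (a.2 + 1) * (M + 1) : ℕ) : ℚ),
      rat_mul.comp (rat_sub.comp
        (hE.comp ((shift_primrec Primrec.fst (Primrec.const d)
          (rat_inv.comp (rat_natCast.comp hH))).pair hm))
        (hE.comp (Primrec.fst.pair hm))) (rat_natCast.comp hH), fun q n hq => ?_⟩
    have hpos := stepQ_pos n M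
    have hle := stepQ_le_one n M
    have h0 := fd_step hf.smooth (pt q) (direction d) (norm_direction_le d) hpos (M := M)
      (fun x hx => hfB 2 2 le_rfl x (by
        have := norm_le_norm_add_norm_sub' x (pt q)
        rw [Metric.mem_closedBall, dist_eq_norm] at hx
        linarith))
    rw [← pt_shift] at h0
    have h1 := hfE (shift q d ((2 * (n + 1) * (M + 1) : ℕ) : ℚ)⁻¹)
      (4 * (n + 1) * (2 * (n + 1) * (M + 1))) (by
        rw [pt_shift]
        refine (norm_add_le _ _).trans (add_le_add hq ?_)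
        rw [norm_smul, Real.norm_eq_abs, abs_of_pos hpos]
        exact mul_le_one₀ hle (norm_nonneg _) (norm_direction_le d))
    have h2 := hfE q (4 * (n + 1) * (2 * (n + 1) * (M + 1))) (by linarith)
    have := fd_arith h0 h1 h2
    rw [Rat.cast_mul, Rat.cast_sub, Rat.cast_natCast]
    exact this

end Crest.Agent.R126
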