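import Crest.Agent.R126.Eff

/-!
A compactly supported field with effective components is effective in the sense of the statement.
-/

set_option autoImplicit false

open scoped ContDiff

namespace Crest.Agent.R126

open Crest.Agent.Lib.Computability Crest.AnalysisR.BoxFlow

/-- Scalar mixed derivatives. -/
noncomputable def md : List (Fin 4) → (P → ℝ) → P → ℝ
  | [], f => f
  | d :: ds, f => pd d (md ds f)

theorem md_contDiff {f : P → ℝ} (hf : ContDiff ℝ ∞ f) : ∀ ds, ContDiff ℝ ∞ (md ds f)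
  | [] => hf
  | d :: ds => pd_contDiff (md_contDiff hf ds) d

theorem norm_iteratedFDeriv_md_le {f : P → ℝ} (hf : ContDiff ℝ ∞ f) :
    ∀ (ds : List (Fin 4)) (i : ℕ) (p : P),
      ‖iteratedFDeriv ℝ i (md ds f) p‖ ≤ ‖iteratedFDeriv ℝ (i + ds.length) f p‖
  | [], _, _ => le_rfl
  | d :: ds, i, p => by
    refine (norm_iteratedFDeriv_pd_le (md_contDiff hf ds) d i p).trans ?_
    have := norm_iteratedFDeriv_md_le hf ds (i + 1) p
    rwa [show i + 1 + ds.length = i + (d :: ds).length by simp only [List.length_cons]; omega] at this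

theorem mixedDeriv_eq {U : Field} (hU : ∀ j, ContDiff ℝ ∞ (fun p => U p j)) :
    ∀ ds, mixedDeriv ds U = fun p j => md ds (fun p => U p j) p
  | [] => rfl
  | d :: ds => by
    funext p j
    simp only [mixedDeriv, md, pd]
    rw [mixedDeriv_eq hU ds,
      fderiv_pi (fun j => ((md_contDiff (hU j) ds).differentiable (by simp)) p)]
    rfl

theorem exists_radius {f : P → ℝ} (hc : HasCompactSupport f) :
    ∃ R : ℕ, ∀ p : P, (R : ℝ) < ‖p‖ → p ∉ tsupport f := by
  obtain ⟨R, hR⟩ := hc.isCompact.isBounded.exists_norm_le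
  refine ⟨⌈R⌉₊, fun p hp hp' => ?_⟩
  have := hR p hp'
  linarith [Nat.le_ceil R]

theorem Eff.global_bound {f : P → ℝ} (hf : Eff f) (hc : HasCompactSupport f) :
    ∃ B : ℕ → ℕ, Primrec B ∧ ∀ k i, i ≤ k → ∀ p : P, ‖iteratedFDeriv ℝ i f p‖ ≤ B k := by
  obtain ⟨R, hR⟩ := exists_radius hc
  obtain ⟨B, hB, hfB⟩ := hf.bdd R
  refine ⟨B, hB, fun k i hi p => ?_⟩
  rcases le_or_gt ‖p‖ R with hp | hp
  · exact hfB k i hi p hp
  · have : iteratedFDeriv ℝ i f p = 0 := by
      by_contra h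
      exact hR p hp (support_iteratedFDeriv_subset i h)
    rw [this, norm_zero]; exact Nat.cast_nonneg _

theorem norm_pt_le_iff (q : PQ) (R : ℕ) :
    ‖pt q‖ ≤ R ↔ |q.1| ≤ R ∧ |q.2 0| ≤ R ∧ |q.2 1| ≤ R ∧ |q.2 2| ≤ R := by
  have key : ∀ x : ℚ, ‖(x : ℝ)‖ ≤ R ↔ |x| ≤ R := fun x => by
    rw [Real.norm_eq_abs, ← Rat.cast_abs, ← Rat.cast_natCast (α := ℝ), Rat.cast_le]
  rw [pt, norm_prod_le_iff, pi_norm_le_iff_of_nonneg (Nat.cast_nonneg _), Fin.forall_fin_succ,
    Fin.forall_fin_succ, Fin.forall_fin_one]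
  simp only [ratPoint, key]
  rfl

theorem Eff.global_apx {f : P → ℝ} (hf : Eff f) (hc : HasCompactSupport f) :
    ∃ E : PQ × ℕ → ℚ, Primrec E ∧
      ∀ (q : PQ) (n : ℕ), |f (pt q) - (E (q, n) : ℝ)| ≤ 1 / ((n : ℝ) + 1) := by
  obtain ⟨R, hR⟩ := exists_radius hc
  obtain ⟨E, hE, hfE⟩ := hf.apx R
  have hco : ∀ j : Fin 3, PrimrecPred (fun a : PQ × ℕ => |a.1.2 j| ≤ R) := fun j =>
    rat_le.comp (rat_abs.comp
      (Primrec.fin_app.comp (Primrec.snd.comp Primrec.fst) (Primrec.const j))) (Primrec.const _)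
  have hp : PrimrecPred (fun a : PQ × ℕ =>
      |a.1.1| ≤ R ∧ |a.1.2 0| ≤ R ∧ |a.1.2 1| ≤ R ∧ |a.1.2 2| ≤ R) :=
    (rat_le.comp (rat_abs.comp (Primrec.fst.comp Primrec.fst)) (Primrec.const _)).and
      ((hco 0).and ((hco 1).and (hco 2)))
  refine ⟨fun a => if |a.1.1| ≤ R ∧ |a.1.2 0| ≤ R ∧ |a.1.2 1| ≤ R ∧ |a.1.2 2| ≤ R then E a else 0,
    Primrec.ite hp hE (Primrec.const 0), fun q n => ?_⟩
  simp only
  split_ifs with h
  · exact hfE q n ((norm_pt_le_iff q R).2 h)
  · have h' : (R : ℝ) < ‖pt q‖ := not_le.1 fun h' => h ((norm_pt_le_iff q R).1 h')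
    rw [image_eq_zero_of_notMem_tsupport (hR _ h')]
    simp only [Rat.cast_zero, sub_self, abs_zero]
    positivity

/-- Iterated finite differences. -/
def apxRec (E : PQ × ℕ → ℚ) (B : ℕ → ℕ) : List (Fin 4) → PQ × ℕ → ℚ
  | [], a => E a
  | d :: ds, a =>
    (apxRec E B ds (shift a.1 d ((2 * (a.2 + 1) * (B (2 + ds.length) + 1) : ℕ) : ℚ)⁻¹,
        4 * (a.2 + 1) * (2 * (a.2 + 1) * (B (2 + ds.length) + 1))) -
      apxRec E B ds (a.1, 4 * (a.2 + 1) * (2 * (a.2 + 1) * (B (2 + ds.length) + 1)))) *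
      ((2 * (a.2 + 1) * (B (2 + ds.length) + 1) : ℕ) : ℚ)

theorem apxRec_spec {f : P → ℝ} (hf : ContDiff ℝ ∞ f) {E : PQ × ℕ → ℚ} {B : ℕ → ℕ}
    (hB : ∀ k i, i ≤ k → ∀ p : P, ‖iteratedFDeriv ℝ i f p‖ ≤ B k)
    (hE : ∀ (q : PQ) (n : ℕ), |f (pt q) - (E (q, n) : ℝ)| ≤ 1 / ((n : ℝ) + 1)) :
    ∀ (ds : List (Fin 4)) (q : PQ) (n : ℕ),
      |md ds f (pt q) - (apxRec E B ds (q, n) : ℝ)| ≤ 1 / ((n : ℝ) + 1)
  | [], q, n => hE q n
  | d :: ds, q, n => by
    have h0 := fd_step (md_contDiff hf ds) (pt q) (direction d) (norm_direction_le d)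
      (stepQ_pos n (B (2 + ds.length))) (M := B (2 + ds.length))
      (fun x _ => (norm_iteratedFDeriv_md_le hf ds 2 x).trans (hB _ _ le_rfl x))
    rw [← pt_shift] at h0
    have h1 := apxRec_spec hf hB hE ds
      (shift q d ((2 * (n + 1) * (B (2 + ds.length) + 1) : ℕ) : ℚ)⁻¹)
      (4 * (n + 1) * (2 * (n + 1) * (B (2 + ds.length) + 1)))
    have h2 := apxRec_spec hf hB hE ds q (4 * (n + 1) * (2 * (n + 1) * (B (2 + ds.length) + 1)))
    have := fd_arith h0 h1 h2
    simp only [apxRec, md, pd]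
    rw [Rat.cast_mul, Rat.cast_sub, Rat.cast_natCast]
    exact this

theorem apxRec_primrec {E : PQ × ℕ → ℚ} {B : ℕ → ℕ} (hE : Primrec E) (hB : Primrec B) :
    Primrec (fun b : List (Fin 4) × (PQ × ℕ) => apxRec E B b.1 b.2) := by
  -- the step count, as a function of the point and of the split list
  have hH : Primrec (fun x : (List (Fin 4) × (PQ × ℕ)) × (Fin 4 × List (Fin 4)) =>
      2 * (x.1.2.2 + 1) * (B (2 + x.2.2.length) + 1)) :=
    Primrec.nat_mul.comp
      (Primrec.nat_double.comp (Primrec.succ.comp (Primrec.snd.comp (Primrec.snd.comp Primrec.fst))))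
      (Primrec.succ.comp (hB.comp (Primrec.nat_add.comp (Primrec.const 2)
        (Primrec.list_length.comp (Primrec.snd.comp Primrec.snd)))))
  have hm : Primrec (fun x : (List (Fin 4) × (PQ × ℕ)) × (Fin 4 × List (Fin 4)) =>
      4 * (x.1.2.2 + 1) * (2 * (x.1.2.2 + 1) * (B (2 + x.2.2.length) + 1))) :=
    Primrec.nat_mul.comp (Primrec.nat_mul.comp (Primrec.const 4)
      (Primrec.succ.comp (Primrec.snd.comp (Primrec.snd.comp Primrec.fst)))) hH
  have hq : Primrec (fun x : (List (Fin 4) × (PQ × ℕ)) × (Fin 4 × List (Fin 4)) => x.1.2.1) :=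
    Primrec.fst.comp (Primrec.snd.comp Primrec.fst)
  have hl := Primrec.list_casesOn (α := List (Fin 4) × (PQ × ℕ)) (β := Fin 4)
    (σ := List (List (Fin 4) × (PQ × ℕ))) (f := fun b => b.1) (g := fun _ => [])
    (h := fun b x =>
      [(x.2, (shift b.2.1 x.1 ((2 * (b.2.2 + 1) * (B (2 + x.2.length) + 1) : ℕ) : ℚ)⁻¹,
          4 * (b.2.2 + 1) * (2 * (b.2.2 + 1) * (B (2 + x.2.length) + 1)))),
        (x.2, (b.2.1, 4 * (b.2.2 + 1) * (2 * (b.2.2 + 1) * (B (2 + x.2.length) + 1))))])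
    Primrec.fst (Primrec.const [])
    (Primrec.list_cons.comp
      ((Primrec.snd.comp Primrec.snd).pair
        ((shift_primrec hq (Primrec.fst.comp Primrec.snd)
          (rat_inv.comp (rat_natCast.comp hH))).pair hm))
      (Primrec.list_cons.comp ((Primrec.snd.comp Primrec.snd).pair (hq.pair hm))
        (Primrec.const [])))
  have hg := Primrec.list_casesOn (α := (List (Fin 4) × (PQ × ℕ)) × List ℚ) (β := Fin 4)
    (σ := ℚ) (f := fun b => b.1.1) (g := fun b => E b.1.2)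
    (h := fun b x => (b.2.getD 0 0 - b.2.getD 1 0) *
      ((2 * (b.1.2.2 + 1) * (B (2 + x.2.length) + 1) : ℕ) : ℚ))
    (Primrec.fst.comp Primrec.fst) (hE.comp (Primrec.snd.comp Primrec.fst))
    (rat_mul.comp
      (rat_sub.comp
        ((Primrec.list_getD (0 : ℚ)).comp (Primrec.snd.comp Primrec.fst) (Primrec.const 0))
        ((Primrec.list_getD (0 : ℚ)).comp (Primrec.snd.comp Primrec.fst) (Primrec.const 1)))
      (rat_natCast.comp (hH.comp ((Primrec.fst.comp Primrec.fst).pair Primrec.snd))))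
  refine Primrec.nat_omega_rec' (fun b : List (Fin 4) × (PQ × ℕ) => apxRec E B b.1 b.2)
    (m := fun b => b.1.length) (Primrec.list_length.comp Primrec.fst) hl
    (Primrec.option_some.comp hg).to₂ ?_ ?_
  · rintro ⟨ds, a⟩ b' hb'
    cases ds with
    | nil => simp at hb'
    | cons d ds =>
      simp only [List.mem_cons, List.not_mem_nil, or_false] at hb'
      rcases hb' with rfl | rfl <;> simp
  · rintro ⟨ds, a⟩
    cases ds with
    | nil => simp [apxRec]
    | cons d ds => simp [apxRec]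

theorem effective_of_eff {U : Field} (hU : ∀ j, Eff (fun p => U p j))
    (hc : HasCompactSupport U) : Effective U := by
  have hcj : ∀ j, HasCompactSupport (fun p => U p j) := fun j =>
    hc.comp_left (g := fun v : Fin 3 → ℝ => v j) rfl
  choose B hB hUB using fun j => (hU j).global_bound (hcj j)
  choose E hE hUE using fun j => (hU j).global_apx (hcj j)
  refine ⟨fun b j => apxRec (E j) (B j) b.1 b.2,
    fun ds => B 0 ds.length + B 1 ds.length + B 2 ds.length, ?_, ?_, ?_, ?_⟩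
  · refine Primrec.to_comp (Primrec.fin_curry.2 ?_)
    exact (Primrec.fin_curry₁.2 fun j => apxRec_primrec (hE j) (hB j)).swap
  · exact (Primrec.nat_add.comp (Primrec.nat_add.comp ((hB 0).comp Primrec.list_length)
      ((hB 1).comp Primrec.list_length)) ((hB 2).comp Primrec.list_length)).to_comp
  · intro ds t q n j
    rw [mixedDeriv_eq fun j => (hU j).smooth]
    exact apxRec_spec (hU j).smooth (hUB j) (hUE j) ds (t, q) n
  · intro ds p j
    rw [mixedDeriv_eq fun j => (hU j).smooth]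
    have h := (norm_iteratedFDeriv_md_le (hU j).smooth ds 0 p).trans
      (hUB j ds.length _ (by simp) p)
    rw [norm_iteratedFDeriv_zero, Real.norm_eq_abs] at h
    refine h.trans ?_
    have h0 : (0 : ℝ) ≤ B 0 ds.length := Nat.cast_nonneg _
    have h1 : (0 : ℝ) ≤ B 1 ds.length := Nat.cast_nonneg _
    have h2 : (0 : ℝ) ≤ B 2 ds.length := Nat.cast_nonneg _
    push_cast
    fin_cases j <;> simp <;> linarith

end Crest.Agent.R126
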