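import Crest.Agent.R126.Move

/-!
The elementary move: simultaneous translations or shears, each cut off near a moving box.
-/

set_option autoImplicit false

open scoped ContDiff Topology

namespace Crest.Agent.R126

open Crest.AnalysisR.BoxFlow

/-- The time profile of the window `[t0, t1]`. -/
noncomputable def prof (t0 t1 : ℚ) (t : ℝ) : ℝ := step ((t - (t0 : ℝ)) * (((t1 - t0)⁻¹ : ℚ) : ℝ))

theorem prof_contDiff (t0 t1 : ℚ) : ContDiff ℝ ∞ (prof t0 t1) :=
  step_contDiff.comp ((contDiff_id.sub contDiff_const).mul contDiff_const)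

theorem prof_mem (t0 t1 : ℚ) (t : ℝ) : prof t0 t1 t ∈ Set.Icc (0 : ℝ) 1 :=
  ⟨step_nonneg _, step_le_one _⟩

theorem prof_of_le {t0 t1 : ℚ} (h : t0 < t1) {t : ℝ} (ht : t ≤ t0) : prof t0 t1 t = 0 := by
  have h' : (0 : ℝ) < (t1 : ℝ) - t0 := by exact_mod_cast sub_pos.2 h
  refine step_of_nonpos ?_
  push_cast
  exact mul_nonpos_of_nonpos_of_nonneg (by linarith) (inv_nonneg.2 h'.le)

theorem prof_of_ge {t0 t1 : ℚ} (h : t0 < t1) {t : ℝ} (ht : (t1 : ℝ) ≤ t) : prof t0 t1 t = 1 := by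
  have h' : (0 : ℝ) < (t1 : ℝ) - t0 := by exact_mod_cast sub_pos.2 h
  refine step_of_one_le ?_
  push_cast
  rw [← div_eq_mul_inv, one_le_div h']
  linarith

theorem deriv_prof_eq_zero {t0 t1 : ℚ} (h : t0 < t1) {t : ℝ} (ht : t ∉ Set.Icc (t0 : ℝ) t1) :
    deriv (prof t0 t1) t = 0 := by
  rw [Set.mem_Icc, not_and_or, not_le, not_le] at ht
  rcases ht with ht | ht
  · have : prof t0 t1 =ᶠ[𝓝 t] fun _ => 0 := by
      filter_upwards [Iio_mem_nhds ht] with s hs using prof_of_le h (le_of_lt hs)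
    rw [this.deriv_eq]; simp
  · have : prof t0 t1 =ᶠ[𝓝 t] fun _ => 1 := by
      filter_upwards [Ioi_mem_nhds ht] with s hs using prof_of_ge h (le_of_lt hs)
    rw [this.deriv_eq]; simp

theorem eff_prof (t0 t1 : ℚ) : Eff (fun p => prof t0 t1 p.1) :=
  ((Eff.time.sub (Eff.const t0)).mul (Eff.const _)).step

theorem eff_deriv_prof (t0 t1 : ℚ) : Eff (fun p => deriv (prof t0 t1) p.1) := by
  refine ((eff_prof t0 t1).pd 0).congr fun p => ?_
  have h : HasDerivAt (prof t0 t1) (deriv (prof t0 t1) p.1) p.1 :=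
    (((prof_contDiff t0 t1).differentiable (by simp)) _).hasDerivAt
  have h2 := h.comp_hasFDerivAt p (hasFDerivAt_fst (𝕜 := ℝ) (p := p))
  unfold pd
  rw [show (fun p : P => prof t0 t1 p.1) = prof t0 t1 ∘ Prod.fst from rfl, h2.fderiv,
    direction_zero]
  simp

/-- A cutoff in one variable: `1` on `[-(r+δ), r+δ]`, `0` outside `(-(r+2δ), r+2δ)`. -/
noncomputable def bump (r δ : ℚ) (u : ℝ) : ℝ :=
  step ((((r + 2 * δ : ℚ) : ℝ) + u) * ((δ⁻¹ : ℚ) : ℝ)) *
    step ((((r + 2 * δ : ℚ) : ℝ) - u) * ((δ⁻¹ : ℚ) : ℝ))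

theorem bump_eq_one {r δ : ℚ} (hδ : 0 < δ) {u : ℝ} (hu : |u| ≤ r + δ) : bump r δ u = 1 := by
  have h' : (0 : ℝ) < δ := by exact_mod_cast hδ
  obtain ⟨h1, h2⟩ := abs_le.1 hu
  unfold bump
  rw [step_of_one_le, step_of_one_le, one_mul] <;>
  · push_cast
    rw [← div_eq_mul_inv, one_le_div h']
    linarith

theorem bump_eq_zero {r δ : ℚ} (hδ : 0 < δ) {u : ℝ} (hu : (r : ℝ) + 2 * δ ≤ |u|) :
    bump r δ u = 0 := by
  have h' : (0 : ℝ) < δ := by exact_mod_cast hδ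
  unfold bump
  rcases le_abs.1 hu with h | h
  · rw [step_of_nonpos (x := (((r + 2 * δ : ℚ) : ℝ) - u) * _), mul_zero]
    push_cast
    exact mul_nonpos_of_nonpos_of_nonneg (by linarith) (inv_nonneg.2 h'.le)
  · rw [step_of_nonpos (x := (((r + 2 * δ : ℚ) : ℝ) + u) * _), zero_mul]
    push_cast
    exact mul_nonpos_of_nonpos_of_nonneg (by linarith) (inv_nonneg.2 h'.le)

theorem Eff.bump {f : P → ℝ} (hf : Eff f) (r δ : ℚ) : Eff (fun p => bump r δ (f p)) :=
  (((Eff.const _).add hf).mul (Eff.const _)).step.mul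
    (((Eff.const _).sub hf).mul (Eff.const _)).step

/-- Offset from the moving centre `q + S(t) d`. -/
noncomputable def off (t0 t1 : ℚ) (q d : Fin 3 → ℚ) (j : Fin 3) (p : P) : ℝ :=
  p.2 j - ((q j : ℝ) + prof t0 t1 p.1 * d j)

theorem eff_off (t0 t1 : ℚ) (q d : Fin 3 → ℚ) (j : Fin 3) : Eff (off t0 t1 q d j) :=
  (Eff.coord j).sub ((Eff.const _).add ((eff_prof t0 t1).mul (Eff.const _)))

/-- The moving cutoff. -/
noncomputable def chi (t0 t1 : ℚ) (q d r : Fin 3 → ℚ) (δ : ℚ) (p : P) : ℝ :=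
  ∏ j, bump (r j) δ (off t0 t1 q d j p)

theorem eff_chi (t0 t1 : ℚ) (q d r : Fin 3 → ℚ) (δ : ℚ) : Eff (chi t0 t1 q d r δ) :=
  Eff.prod Finset.univ fun j _ => (eff_off t0 t1 q d j).bump _ _

theorem chi_eventually_one {t0 t1 : ℚ} {q d r : Fin 3 → ℚ} {δ : ℚ} (hδ : 0 < δ) {p : P}
    (hp : ∀ j, |off t0 t1 q d j p| ≤ r j) : ∀ᶠ p' in 𝓝 p, chi t0 t1 q d r δ p' = 1 := by
  have h' : (0 : ℝ) < δ := by exact_mod_cast hδ
  have : ∀ᶠ p' in 𝓝 p, ∀ j, |off t0 t1 q d j p'| < r j + δ := by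
    refine Filter.eventually_all.2 fun j => ?_
    exact ((eff_off t0 t1 q d j).smooth.continuous.abs.continuousAt).eventually_lt
      continuousAt_const (by linarith [hp j])
  filter_upwards [this] with p' hp'
  exact Finset.prod_eq_one fun j _ => bump_eq_one hδ (hp' j).le

theorem chi_eq_zero {t0 t1 : ℚ} {q d r : Fin 3 → ℚ} {δ : ℚ} (hδ : 0 < δ) {p : P} {j : Fin 3}
    (hp : (r j : ℝ) + 2 * δ ≤ |off t0 t1 q d j p|) : chi t0 t1 q d r δ p = 0 :=
  Finset.prod_eq_zero (Finset.mem_univ j) (bump_eq_zero hδ hp)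

theorem chi_eventually_zero {t0 t1 : ℚ} {q d r : Fin 3 → ℚ} {δ : ℚ} (hδ : 0 < δ) {p : P}
    {j : Fin 3} (hp : (r j : ℝ) + 2 * δ < |off t0 t1 q d j p|) :
    ∀ᶠ p' in 𝓝 p, chi t0 t1 q d r δ p' = 0 := by
  have : ∀ᶠ p' in 𝓝 p, (r j : ℝ) + 2 * δ < |off t0 t1 q d j p'| :=
    continuousAt_const.eventually_lt
      ((eff_off t0 t1 q d j).smooth.continuous.abs.continuousAt) hp
  filter_upwards [this] with p' hp' using chi_eq_zero hδ hp'.le

/-- The uncut stream function. -/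
noncomputable def pot (t0 t1 : ℚ) (a b : ℚ) (k : Fin 3) (p : P) : ℝ :=
  deriv (prof t0 t1) p.1 * ((a : ℝ) * p.2 k + ((b / 2 : ℚ) : ℝ) * (p.2 k * p.2 k))

theorem eff_pot (t0 t1 a b : ℚ) (k : Fin 3) : Eff (pot t0 t1 a b k) :=
  (eff_deriv_prof t0 t1).mul (((Eff.const _).mul (Eff.coord k)).add
    ((Eff.const _).mul ((Eff.coord k).mul (Eff.coord k))))

theorem pd_pot (t0 t1 a b : ℚ) (k l : Fin 3) (p : P) :
    pd l.succ (pot t0 t1 a b k) p =
      deriv (prof t0 t1) p.1 * ((a : ℝ) + b * p.2 k) * (Pi.single l (1 : ℝ) : V) k := by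
  have h0 : Differentiable ℝ (deriv (prof t0 t1)) :=
    (((prof_contDiff t0 t1).deriv' (n := ∞)).differentiable (by simp))
  have h1 := (h0 p.1).hasDerivAt.comp_hasFDerivAt p (hasFDerivAt_fst (𝕜 := ℝ) (p := p))
  have hk : HasFDerivAt (fun p : P => p.2 k)
      ((ContinuousLinearMap.proj k).comp (ContinuousLinearMap.snd ℝ ℝ V)) p :=
    ((ContinuousLinearMap.proj k).comp (ContinuousLinearMap.snd ℝ ℝ V)).hasFDerivAt
  have h2 := h1.mul ((hk.const_mul (a : ℝ)).add ((hk.mul hk).const_mul ((b / 2 : ℚ) : ℝ)))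
  have h3 : HasFDerivAt (pot t0 t1 a b k) _ p := h2
  unfold pd
  rw [h3.fderiv, direction_succ]
  simp
  ring

theorem strm_pot (t0 t1 a b : ℚ) {j k : Fin 3} (hjk : k ≠ j) (p : P) :
    strm j k (pot t0 t1 a b k) p =
      Pi.single j (deriv (prof t0 t1) p.1 * ((a : ℝ) + b * p.2 k)) := by
  funext l
  unfold strm
  rw [pd_pot, pd_pot, Pi.single_eq_same, Pi.single_eq_of_ne hjk]
  simp [Pi.single_apply]

theorem good_cut {t0 t1 : ℚ} (h : t0 < t1) (q d r : Fin 3 → ℚ) {δ : ℚ} (hδ : 0 < δ) (a b : ℚ)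
    (j k : Fin 3) :
    Good t0 t1 (strm j k (fun p => chi t0 t1 q d r δ p * pot t0 t1 a b k p)) := by
  have ht : ∀ p : P, p.1 ∉ Set.Icc (t0 : ℝ) t1 → chi t0 t1 q d r δ p * pot t0 t1 a b k p = 0 :=
    fun p hp => by simp [pot, deriv_prof_eq_zero h hp]
  refine good_strm ((eff_chi t0 t1 q d r δ).mul (eff_pot t0 t1 a b k)) ?_ ht j k
  refine HasCompactSupport.intro
    (K := Set.Icc (t0 : ℝ) t1 ×ˢ Set.pi Set.univ fun j =>
      Metric.closedBall (0 : ℝ) (|(q j : ℝ)| + |(d j : ℝ)| + ((r j : ℝ) + 2 * δ)))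
    (isCompact_Icc.prod (isCompact_univ_pi fun j => isCompact_closedBall _ _)) fun p hp => ?_
  rw [Set.mem_prod, not_and_or] at hp
  rcases hp with hp | hp
  · exact ht p hp
  · simp only [Set.mem_pi, Set.mem_univ, true_imp_iff, not_forall, mem_closedBall_zero_iff,
      Real.norm_eq_abs, not_le] at hp
    obtain ⟨l, hl⟩ := hp
    rw [chi_eq_zero hδ (j := l), zero_mul]
    have h1 := prof_mem t0 t1 p.1
    have h2 : |prof t0 t1 p.1 * (d l : ℝ)| ≤ |(d l : ℝ)| := by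
      rw [abs_mul, abs_of_nonneg h1.1]; exact mul_le_of_le_one_left (abs_nonneg _) h1.2
    have h3 := abs_add_le (q l : ℝ) (prof t0 t1 p.1 * (d l : ℝ))
    have h4 := abs_sub_abs_le_abs_sub (p.2 l) ((q l : ℝ) + prof t0 t1 p.1 * (d l : ℝ))
    unfold off
    linarith

/-- The elementary move. -/
theorem rl_elem {ι : Type*} [Fintype ι] (K : ι → Set V) (q d r α β : ι → Fin 3 → ℚ)
    (σ : Fin 3 → Fin 3) (hσ : ∀ j, σ j ≠ j) {δ : ℚ} (hδ : 0 < δ)
    (h1 : ∀ i, ∀ x ∈ K i, ∀ j, (β i j : ℝ) * ((α i (σ j) : ℝ) + β i (σ j) * x (σ (σ j))) = 0)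
    (h2 : ∀ i, ∀ x ∈ K i, ∀ s ∈ Set.Icc (0 : ℝ) 1, ∀ j,
      |x j + s * ((α i j : ℝ) + β i j * x (σ j)) - ((q i j : ℝ) + s * d i j)| ≤ r i j)
    (h3 : ∀ s ∈ Set.Icc (0 : ℝ) 1, ∀ i i', i ≠ i' → ∃ j, (r i j : ℝ) + r i' j + 3 * δ ≤
      |((q i j : ℝ) + s * d i j) - ((q i' j : ℝ) + s * d i' j)|) :
    Rl K (fun i x j => x j + ((α i j : ℝ) + β i j * x (σ j))) := by
  classical
  intro t0 t1 ht
  have hδ' : (0 : ℝ) < δ := by exact_mod_cast hδ
  refine ⟨fun p => ∑ i, ∑ j, strm j (σ j)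
      (fun p => chi t0 t1 (q i) (d i) (r i) δ p * pot t0 t1 (α i j) (β i j) (σ j) p) p,
    Good.sum _ fun i _ => Good.sum _ fun j _ => good_cut ht _ _ _ hδ _ _ _ _, fun i x hx => ?_⟩
  set v : V := fun j => (α i j : ℝ) + β i j * x (σ j) with hv
  refine ⟨fun t => x + prof t0 t1 t • v, fun t h => ?_, fun t h => ?_, fun t => ?_⟩
  · simp [prof_of_le ht h]
  · funext j; simp [prof_of_ge ht h, hv]
  · have hd : HasDerivAt (fun t => x + prof t0 t1 t • v) (deriv (prof t0 t1) t • v) t :=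
      ((((prof_contDiff t0 t1).differentiable (by simp)) t).hasDerivAt.smul_const v).const_add x
    convert hd using 1
    set p : P := (t, x + prof t0 t1 t • v) with hp
    have hoff : ∀ j, |off t0 t1 (q i) (d i) j p| ≤ r i j := fun j => by
      simpa [off, hp, hv] using h2 i x hx _ (prof_mem t0 t1 t) j
    beta_reduce
    rw [Finset.sum_eq_single i]
    · have e : ∀ j, strm j (σ j)
          (fun p => chi t0 t1 (q i) (d i) (r i) δ p * pot t0 t1 (α i j) (β i j) (σ j) p) p =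
          Pi.single j (deriv (prof t0 t1) t * v j) := by
        intro j
        rw [strm_congr (Ψ' := pot t0 t1 (α i j) (β i j) (σ j)), strm_pot _ _ _ _ (hσ j)]
        · congr 2
          have := h1 i x hx j
          simp only [hp, hv, Pi.add_apply, Pi.smul_apply, smul_eq_mul]
          linear_combination prof t0 t1 t * this
        · filter_upwards [chi_eventually_one hδ hoff] with p' hp'
          rw [hp', one_mul]
      simp only [e]
      rw [Finset.univ_sum_single]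
      rfl
    · intro i' _ hi'
      obtain ⟨l, hl⟩ := h3 _ (prof_mem t0 t1 t) i i' hi'.symm
      have hz : (r i' l : ℝ) + 2 * δ < |off t0 t1 (q i') (d i') l p| := by
        have a1 := hoff l
        have a2 := abs_sub (off t0 t1 (q i') (d i') l p) (off t0 t1 (q i) (d i) l p)
        have a3 : off t0 t1 (q i') (d i') l p - off t0 t1 (q i) (d i) l p =
            ((q i l : ℝ) + prof t0 t1 t * d i l) - ((q i' l : ℝ) + prof t0 t1 t * d i' l) := by
          simp only [off, hp]; ring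
        rw [a3] at a2
        linarith
      refine Finset.sum_eq_zero fun j _ => strm_eq_zero ?_ _ _
      filter_upwards [chi_eventually_zero hδ hz] with p' hp'
      rw [hp', zero_mul]
    · simp

end Crest.Agent.R126
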