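import Crest.Agent.R126.Elem

/-!
Translations along collision-free segments, local volume-preserving rescalings by shears, and
the assembly of the whole motion.
-/

set_option autoImplicit false

open scoped ContDiff Topology

namespace Crest.Agent.R126

open Crest.AnalysisR.BoxFlow

theorem exists_margin {κ : Type*} [Finite κ] (g : κ → ℝ → ℝ) (hg : ∀ c, Continuous (g c))
    (hpos : ∀ c, ∀ s ∈ Set.Icc (0 : ℝ) 1, 0 < g c s) :
    ∃ δ : ℚ, 0 < δ ∧ ∀ c, ∀ s ∈ Set.Icc (0 : ℝ) 1, (δ : ℝ) ≤ g c s := by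
  have h : ∀ᶠ δ : ℚ in 𝓝[>] 0, ∀ c, ∀ s ∈ Set.Icc (0 : ℝ) 1, (δ : ℝ) ≤ g c s := by
    refine Filter.eventually_all.2 fun c => ?_
    obtain ⟨a, ha, hb⟩ := isCompact_Icc.exists_forall_le' (hg c).continuousOn (hpos c)
    obtain ⟨x, hx0, hxa⟩ := exists_rat_btwn ha
    have hx : (0 : ℚ) < x := by exact_mod_cast hx0
    filter_upwards [nhdsWithin_le_nhds (Iio_mem_nhds hx)] with δ hδ s hs
    have : (δ : ℝ) < x := by exact_mod_cast hδ
    linarith [hb s hs]
  obtain ⟨δ, hδ, hδ0⟩ := (h.and self_mem_nhdsWithin).exists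
  exact ⟨δ, hδ0, hδ⟩

theorem exists_margin3 {ι : Type*} [Finite ι] (g : ι → ι → Fin 3 → ℝ → ℝ)
    (hg : ∀ i i' j, Continuous (g i i' j))
    (hpos : ∀ s ∈ Set.Icc (0 : ℝ) 1, ∀ i i', i ≠ i' → ∃ j, 0 < g i i' j s) :
    ∃ δ : ℚ, 0 < δ ∧ ∀ s ∈ Set.Icc (0 : ℝ) 1, ∀ i i', i ≠ i' → ∃ j, (δ : ℝ) ≤ g i i' j s := by
  obtain ⟨δ, hδ, h⟩ := exists_margin (κ := {p : ι × ι // p.1 ≠ p.2})
    (fun c s => max (g c.1.1 c.1.2 0 s) (max (g c.1.1 c.1.2 1 s) (g c.1.1 c.1.2 2 s)))
    (fun c => (hg _ _ _).max ((hg _ _ _).max (hg _ _ _)))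
    (fun c s hs => by
      obtain ⟨j, hj⟩ := hpos s hs c.1.1 c.1.2 c.2
      simp only [lt_max_iff]
      fin_cases j
      · exact Or.inl hj
      · exact Or.inr (Or.inl hj)
      · exact Or.inr (Or.inr hj))
  refine ⟨δ, hδ, fun s hs i i' hii => ?_⟩
  have := h ⟨(i, i'), hii⟩ s hs
  simp only [le_max_iff] at this
  rcases this with h | h | h
  exacts [⟨0, h⟩, ⟨1, h⟩, ⟨2, h⟩]

/-- Simultaneous translations along a collision-free segment. -/
theorem rl_trans {ι : Type*} [Fintype ι] (c c' r : ι → Fin 3 → ℚ)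
    (hsep : ∀ s ∈ Set.Icc (0 : ℝ) 1, ∀ i i', i ≠ i' → ∃ j, (r i j : ℝ) + r i' j <
      |((c i j : ℝ) + s * (c' i j - c i j)) - ((c i' j : ℝ) + s * (c' i' j - c i' j))|) :
    Rl (fun i => box (c i) (r i)) (fun i x j => x j + ((c' i j : ℝ) - c i j)) := by
  obtain ⟨δ, hδ, h⟩ := exists_margin3 (fun i i' j s =>
    |((c i j : ℝ) + s * (c' i j - c i j)) - ((c i' j : ℝ) + s * (c' i' j - c i' j))| -
      ((r i j : ℝ) + r i' j)) (fun i i' j => by fun_prop)
    (fun s hs i i' hii => by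
      obtain ⟨j, hj⟩ := hsep s hs i i' hii
      exact ⟨j, sub_pos.2 hj⟩)
  have := rl_elem (fun i => box (c i) (r i)) c (fun i j => c' i j - c i j) r
    (fun i j => c' i j - c i j) (fun _ _ => 0) (fun j => j + 1) (by decide) (δ := δ / 3)
    (by positivity) (fun i x _ j => by simp) (fun i x hx s _ j => by
      have := hx j
      push_cast
      rwa [show x j + s * ((c' i j : ℝ) - c i j + 0 * x (j + 1)) -
        ((c i j : ℝ) + s * ((c' i j : ℝ) - c i j)) = x j - c i j by ring])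
    (fun s hs i i' hii => by
      obtain ⟨j, hj⟩ := h s hs i i' hii
      refine ⟨j, ?_⟩
      push_cast
      linarith)
  refine this.congr fun i x _ => ?_
  funext j; simp

theorem trans_mem {c c' r : Fin 3 → ℚ} {x : V} (hx : x ∈ box c r) :
    (fun j => x j + ((c' j : ℝ) - c j)) ∈ box c' r := fun j => by
  have := hx j
  rwa [show x j + ((c' j : ℝ) - c j) - c' j = x j - c j by ring]

/-- Maps `A i`, applied around centres that are far enough apart, are realised. -/
def RlLoc {ι : Type*} (A : ι → V → V) : Prop :=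
  ∀ ρ : ℚ, ∃ ρ' D : ℚ, (∀ i (y : V), (∀ l, |y l| ≤ ρ) → ∀ l, |A i y l| ≤ ρ') ∧
    ∀ c : ι → Fin 3 → ℚ, (∀ i i', i ≠ i' → ∃ l, (D : ℝ) ≤ |(c i l : ℝ) - c i' l|) →
      Rl (fun i => box (c i) (fun _ => ρ))
        (fun i x l => (c i l : ℝ) + A i (fun m => x m - c i m) l)

theorem RlLoc.comp {ι : Type*} {A A' : ι → V → V} (h : RlLoc A) (h' : RlLoc A') :
    RlLoc (fun i y => A' i (A i y)) := by
  intro ρ
  obtain ⟨ρ1, D1, hb1, hr1⟩ := h ρ
  obtain ⟨ρ2, D2, hb2, hr2⟩ := h' ρ1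
  refine ⟨ρ2, max D1 D2, fun i y hy => hb2 i _ (hb1 i y hy), fun c hc => ?_⟩
  have h1 := hr1 c fun i i' hii => by
    obtain ⟨l, hl⟩ := hc i i' hii
    exact ⟨l, le_trans (by exact_mod_cast le_max_left _ _) hl⟩
  have h2 := hr2 c fun i i' hii => by
    obtain ⟨l, hl⟩ := hc i i' hii
    exact ⟨l, le_trans (by exact_mod_cast le_max_right _ _) hl⟩
  refine (h1.comp h2 fun i x hx l => ?_).congr fun i x _ => ?_
  · simpa using hb1 i _ hx l
  · simp

theorem RlLoc.congr {ι : Type*} {A A' : ι → V → V} (h : RlLoc A) (e : ∀ i y, A i y = A' i y) :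
    RlLoc A' := by
  have : A = A' := funext fun i => funext (e i)
  exact this ▸ h

/-- The shear `y j += μ * y k`. -/
def sh (j k : Fin 3) (μ : ℚ) (y : V) : V := fun l => y l + if l = j then (μ : ℝ) * y k else 0

theorem rlLoc_sh {ι : Type*} [Fintype ι] {j k : Fin 3} (hjk : k ≠ j) (μ : ι → ℚ) :
    RlLoc (fun i => sh j k (μ i)) := by
  intro ρ
  obtain ⟨M, hM⟩ : ∃ M : ℚ, ∀ i, |μ i| ≤ M := Finite.exists_le fun i => |μ i|
  have hM' : ∀ i, |(μ i : ℝ)| ≤ |(M : ℝ)| := fun i => by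
    have : |(μ i : ℝ)| ≤ M := by exact_mod_cast hM i
    exact this.trans (le_abs_self _)
  have key : ∀ i (y : V), (∀ l, |y l| ≤ ρ) → ∀ s ∈ Set.Icc (0 : ℝ) 1, ∀ l,
      |y l + s * if l = j then (μ i : ℝ) * y k else 0| ≤ (((1 + |M|) * ρ : ℚ) : ℝ) := by
    intro i y hy s hs l
    have hρ : (0 : ℝ) ≤ ρ := (abs_nonneg _).trans (hy l)
    have h1 : |s * if l = j then (μ i : ℝ) * y k else 0| ≤ |(M : ℝ)| * ρ := by
      split_ifs
      · rw [abs_mul, abs_mul, abs_of_nonneg hs.1]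
        exact (mul_le_of_le_one_left (by positivity) hs.2).trans
          (mul_le_mul (hM' i) (hy k) (abs_nonneg _) (abs_nonneg _))
      · simp only [mul_zero, abs_zero]; positivity
    push_cast
    linarith [abs_add_le (y l) (s * if l = j then (μ i : ℝ) * y k else 0), hy l]
  refine ⟨(1 + |M|) * ρ, 2 * ((1 + |M|) * ρ) + 3, fun i y hy l => ?_, fun c hc => ?_⟩
  · simpa [sh] using key i y hy 1 (by simp) l
  · have := rl_elem (fun i => box (c i) (fun _ => ρ)) c (fun _ _ => 0)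
      (fun _ _ => (1 + |M|) * ρ) (fun i l => if l = j then -(μ i * c i k) else 0)
      (fun i l => if l = j then μ i else 0) (fun l => if l = j then k else j)
      (fun l => by split_ifs with h; exacts [h ▸ hjk, fun h' => h h'.symm]) (δ := 1) one_pos
      (fun i x _ l => by
        by_cases h : l = j
        · simp [h, hjk]
        · simp [h])
      (fun i x hx s hs l => by
        have := key i (fun m => x m - c i m) hx s hs l
        convert this using 2
        by_cases h : l = j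
        · simp only [h, if_true]; push_cast; ring
        · simp only [h, if_false]; push_cast; ring)
      (fun s _ i i' hii => by
        obtain ⟨l, hl⟩ := hc i i' hii
        refine ⟨l, ?_⟩
        push_cast at hl ⊢
        simp only [mul_zero, add_zero]
        linarith)
    refine this.congr fun i x _ => ?_
    funext l
    by_cases h : l = j
    · simp only [sh, h, if_true]; push_cast; ring
    · simp only [sh, h, if_false]; push_cast; ring

theorem rlLoc_diag2 {ι : Type*} [Fintype ι] {j k : Fin 3} (hjk : k ≠ j) (u : ι → ℚ)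
    (hu : ∀ i, u i ≠ 0) :
    RlLoc (fun i (y : V) l =>
      if l = j then (u i : ℝ) * y j else if l = k then y k / u i else y l) := by
  have h := (((rlLoc_sh hjk fun i => -1 / u i).comp (rlLoc_sh hjk.symm fun i => u i - 1)).comp
    (rlLoc_sh hjk fun _ => 1)).comp (rlLoc_sh hjk.symm fun i => -(u i - 1) / u i)
  refine h.congr fun i y => ?_
  have hu' : (u i : ℝ) ≠ 0 := by exact_mod_cast hu i
  funext l
  by_cases h1 : l = j
  · subst h1
    simp only [sh, hjk, hjk.symm, if_true, if_false]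
    push_cast; field_simp; ring
  · by_cases h2 : l = k
    · subst h2
      simp only [sh, hjk, hjk.symm, if_true, if_false]
      push_cast; field_simp; ring
    · simp [sh, h1, h2]

theorem rlLoc_diag {ι : Type*} [Fintype ι] (u : ι → Fin 3 → ℚ) (hu : ∀ i, ∏ j, u i j = 1) :
    RlLoc (fun i (y : V) l => (u i l : ℝ) * y l) := by
  have hprod : ∀ i, u i 0 * u i 1 * u i 2 = 1 := fun i => by
    have := hu i; rwa [Fin.prod_univ_three] at this
  have h01 : ∀ i, u i 0 * u i 1 ≠ 0 := fun i h => by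
    have := hprod i; rw [h, zero_mul] at this; exact zero_ne_one this
  have h0 : ∀ i, u i 0 ≠ 0 := fun i => left_ne_zero_of_mul (h01 i)
  have h := (rlLoc_diag2 (j := 0) (k := 1) (by decide) (fun i => u i 0) h0).comp
    (rlLoc_diag2 (j := 1) (k := 2) (by decide) (fun i => u i 0 * u i 1) h01)
  refine h.congr fun i y => ?_
  have a0 : (u i 0 : ℝ) ≠ 0 := by exact_mod_cast h0 i
  have a1 : (u i 1 : ℝ) ≠ 0 := by exact_mod_cast right_ne_zero_of_mul (h01 i)
  have a2 : (u i 0 : ℝ) * u i 1 * u i 2 = 1 := by exact_mod_cast hprod i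
  funext l
  fin_cases l
  · simp
  · simp; field_simp
  · simp
    field_simp
    linear_combination (-y 2) * a2

/-- An intermediate configuration in general position. -/
theorem exists_generic {n : ℕ} (a b : Fin n → Fin 3 → ℚ) :
    ∃ c : Fin n → Fin 3 → ℚ, ∀ e : Fin n → Fin 3 → ℚ, (e = a ∨ e = b) →
      (∀ i i', i ≠ i' → ∃ j, e i j ≠ e i' j) →
      ∀ s : ℝ, ∀ i i', i ≠ i' → ∃ j,
        0 < |((e i j : ℝ) + s * (c i j - e i j)) - ((e i' j : ℝ) + s * (c i' j - e i' j))| := by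
  classical
  obtain ⟨τ, hτ⟩ := Infinite.exists_notMem_finset
    ((Finset.univ.image fun p : Fin n × Fin n => (a p.1 1 - a p.2 1) / (a p.1 0 - a p.2 0)) ∪
      (Finset.univ.image fun p : Fin n × Fin n => (b p.1 1 - b p.2 1) / (b p.1 0 - b p.2 0)))
  refine ⟨fun i => ![(i : ℕ), (i : ℕ) * τ, 0], fun e he hinj s i i' hii => ?_⟩
  have hτ' : τ ≠ (e i 1 - e i' 1) / (e i 0 - e i' 0) := by
    intro h
    apply hτ
    rcases he with rfl | rfl
    · exact Finset.mem_union_left _ (Finset.mem_image.2 ⟨(i, i'), Finset.mem_univ _, h.symm⟩)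
    · exact Finset.mem_union_right _ (Finset.mem_image.2 ⟨(i, i'), Finset.mem_univ _, h.symm⟩)
  by_contra hcon
  push Not at hcon
  have hz := fun j => abs_nonpos_iff.1 (hcon j)
  have h0 := hz 0
  have h1 := hz 1
  simp only [Matrix.cons_val_zero, Matrix.cons_val_one, Rat.cast_natCast, Rat.cast_mul] at h0 h1
  have hm : ((i : ℕ) : ℝ) - (i' : ℕ) ≠ 0 := by
    rw [sub_ne_zero]; exact_mod_cast fun h => hii (Fin.ext h)
  by_cases hs : s = 0
  · obtain ⟨j, hj⟩ := hinj i i' hii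
    have := hz j
    rw [hs, zero_mul, zero_mul, add_zero, add_zero, sub_eq_zero] at this
    exact hj (by exact_mod_cast this)
  · have e0 : (1 - s) * ((e i 0 : ℝ) - e i' 0) = -(s * (((i : ℕ) : ℝ) - (i' : ℕ))) := by
      linear_combination h0
    have e1 : (1 - s) * ((e i 1 : ℝ) - e i' 1) = -(s * (((i : ℕ) : ℝ) - (i' : ℕ))) * τ := by
      linear_combination h1
    have hne : (1 - s) * ((e i 0 : ℝ) - e i' 0) ≠ 0 := by
      rw [e0]; exact neg_ne_zero.2 (mul_ne_zero hs hm)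
    have hs1 := left_ne_zero_of_mul hne
    have hw := right_ne_zero_of_mul hne
    have e2 : ((e i 1 : ℝ) - e i' 1) = ((e i 0 : ℝ) - e i' 0) * τ := by
      apply mul_left_cancel₀ hs1
      rw [e1, ← e0]; ring
    apply hτ'
    have : (τ : ℝ) = ((e i 1 : ℝ) - e i' 1) / ((e i 0 : ℝ) - e i' 0) := by
      rw [e2]; field_simp
    exact_mod_cast this

/-- The whole motion, for separated closed boxes. -/
theorem rl_boxes {n : ℕ} (a b h k : Fin n → Fin 3 → ℚ) (hh : ∀ i j, 0 < h i j)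
    (hk : ∀ i j, 0 < k i j)
    (ha : ∀ i i', i ≠ i' → ∃ j, h i j + h i' j < |a i j - a i' j|)
    (hb : ∀ i i', i ≠ i' → ∃ j, k i j + k i' j < |b i j - b i' j|)
    (hvol : ∀ i, ∏ j : Fin 3, k i j / h i j = 1) :
    Rl (fun i => box (a i) (h i))
      (fun i x j => (b i j : ℝ) + ((k i j / h i j : ℚ) : ℝ) * (x j - (a i j : ℝ))) := by
  obtain ⟨ρ, hρ⟩ : ∃ ρ : ℚ, ∀ p : Fin n × Fin 3, h p.1 p.2 ≤ ρ := Finite.exists_le _
  obtain ⟨κ, hκ⟩ : ∃ κ : ℚ, ∀ p : Fin n × Fin 3, k p.1 p.2 ≤ κ := Finite.exists_le _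
  obtain ⟨-, D, -, hD⟩ := rlLoc_diag (fun i j => k i j / h i j) hvol ρ
  obtain ⟨c, hc⟩ := exists_generic a b
  obtain ⟨μa, hμa, hca⟩ := exists_margin3 (fun i i' j s =>
    |((a i j : ℝ) + s * (c i j - a i j)) - ((a i' j : ℝ) + s * (c i' j - a i' j))|)
    (fun i i' j => by fun_prop) (fun s _ => hc a (Or.inl rfl) (fun i i' hii => by
      obtain ⟨j, hj⟩ := ha i i' hii
      refine ⟨j, fun e => ?_⟩
      rw [e, sub_self, abs_zero] at hj
      linarith [hh i j, hh i' j]) s)
  obtain ⟨μb, hμb, hcb⟩ := exists_margin3 (fun i i' j s =>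
    |((b i j : ℝ) + s * (c i j - b i j)) - ((b i' j : ℝ) + s * (c i' j - b i' j))|)
    (fun i i' j => by fun_prop) (fun s _ => hc b (Or.inr rfl) (fun i i' hii => by
      obtain ⟨j, hj⟩ := hb i i' hii
      refine ⟨j, fun e => ?_⟩
      rw [e, sub_self, abs_zero] at hj
      linarith [hk i j, hk i' j]) s)
  set μ : ℚ := min μa μb with hμdef
  have hμ : 0 < μ := lt_min hμa hμb
  have hμ' : (0 : ℝ) < μ := by exact_mod_cast hμ
  have hμa' : (μ : ℝ) ≤ μa := by exact_mod_cast min_le_left _ _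
  have hμb' : (μ : ℝ) ≤ μb := by exact_mod_cast min_le_right _ _
  set L : ℚ := 1 + (|D| + 2 * |κ|) / μ with hLdef
  have hL1 : (1 : ℝ) ≤ L := by
    have : (1 : ℚ) ≤ L := le_add_of_nonneg_right (by positivity)
    exact_mod_cast this
  have hLμ : (L : ℝ) * μ = μ + |(D : ℝ)| + 2 * |(κ : ℝ)| := by
    rw [hLdef]; push_cast; field_simp; ring
  have hκ' : ∀ i j, (k i j : ℝ) ≤ |(κ : ℝ)| := fun i j =>
    le_trans (by exact_mod_cast hκ (i, j)) (le_abs_self _)
  have big : ∀ {x : ℝ}, (μ : ℝ) ≤ |x| → (μ : ℝ) + |(D : ℝ)| + 2 * |(κ : ℝ)| ≤ |L * x| := by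
    intro x hx
    rw [abs_mul, abs_of_pos (a := (L : ℝ)) (by linarith), ← hLμ]
    exact mul_le_mul_of_nonneg_left hx (by linarith)
  have grow : ∀ {x r t : ℝ}, r < |x| → 1 ≤ t → r < |t * x| := by
    intro x r t hx ht
    rw [abs_mul, abs_of_pos (by linarith)]
    exact hx.trans_le (le_mul_of_one_le_left (abs_nonneg _) ht)
  -- phase 1
  have p1 := rl_trans a (fun i j => L * a i j) h (fun s hs i i' hii => by
    obtain ⟨j, hj⟩ := ha i i' hii
    refine ⟨j, ?_⟩
    have hj' : (h i j : ℝ) + h i' j < |(a i j : ℝ) - a i' j| := by exact_mod_cast hj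
    have := grow hj' (t := 1 + s * (L - 1)) (by nlinarith [hs.1])
    convert this using 2
    push_cast; ring)
  -- phase 2
  have p2 := (hD (fun i j => L * a i j) (fun i i' hii => by
    obtain ⟨j, hj⟩ := hca 0 (by simp) i i' hii
    refine ⟨j, ?_⟩
    have := big (hμa'.trans hj)
    have e : ((L * a i j : ℚ) : ℝ) - ((L * a i' j : ℚ) : ℝ) =
        L * (((a i j : ℝ) + 0 * (c i j - a i j)) - ((a i' j : ℝ) + 0 * (c i' j - a i' j))) := by
      push_cast; ring
    rw [e]
    linarith [le_abs_self (D : ℝ), abs_nonneg (κ : ℝ)])).mono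
      (K' := fun i => box (fun j => L * a i j) (h i))
      (fun i x hx j => (hx j).trans (by exact_mod_cast hρ (i, j)))
  -- phase 3
  have p3 := rl_trans (fun i j => L * a i j) (fun i j => L * c i j) k (fun s hs i i' hii => by
    obtain ⟨j, hj⟩ := hca s hs i i' hii
    refine ⟨j, ?_⟩
    have := big (hμa'.trans hj)
    refine lt_of_lt_of_le (by linarith [hκ' i j, hκ' i' j, abs_nonneg (D : ℝ)]) (this.trans_eq ?_)
    congr 1
    push_cast; ring)
  -- phase 4
  have p4 := rl_trans (fun i j => L * c i j) (fun i j => L * b i j) k (fun s hs i i' hii => by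
    obtain ⟨j, hj⟩ := hcb (1 - s) ⟨by linarith [hs.2], by linarith [hs.1]⟩ i i' hii
    refine ⟨j, ?_⟩
    have := big (hμb'.trans hj)
    refine lt_of_lt_of_le (by linarith [hκ' i j, hκ' i' j, abs_nonneg (D : ℝ)]) (this.trans_eq ?_)
    congr 1
    push_cast; ring)
  -- phase 5
  have p5 := rl_trans (fun i j => L * b i j) b k (fun s hs i i' hii => by
    obtain ⟨j, hj⟩ := hb i i' hii
    refine ⟨j, ?_⟩
    have hj' : (k i j : ℝ) + k i' j < |(b i j : ℝ) - b i' j| := by exact_mod_cast hj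
    have := grow hj' (t := 1 + (1 - s) * (L - 1)) (by nlinarith [hs.2])
    convert this using 2
    push_cast; ring)
  have p45 := p4.comp p5 fun i x hx => trans_mem hx
  have p35 := p3.comp p45 fun i x hx => trans_mem hx
  have p25 := p2.comp p35 fun i x hx j => by
    have h1 := hx j
    have h2 : (0 : ℝ) < h i j := by exact_mod_cast hh i j
    have h3 : (0 : ℝ) < k i j := by exact_mod_cast hk i j
    simp only [add_sub_cancel_left]
    push_cast at h1 ⊢
    rw [abs_mul, abs_of_pos (div_pos h3 h2), div_mul_eq_mul_div, div_le_iff₀ h2]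
    exact mul_le_mul_of_nonneg_left h1 h3.le
  have p15 := p1.comp p25 fun i x hx => trans_mem hx
  refine p15.congr fun i x _ => ?_
  funext j
  push_cast
  ring

end Crest.Agent.R126
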