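import Crest.Agent.R126.Effective

/-!
Good fields, trajectories carried by them, concatenation in time, global existence of flows,
and divergence-free fields from stream functions.
-/

set_option autoImplicit false

open scoped ContDiff Topology

namespace Crest.Agent.R126

open Crest.AnalysisR.BoxFlow

/-- Space. -/
abbrev V : Type := Fin 3 → ℝ

/-- Effective, compactly supported, divergence-free fields active in the window `[t0, t1]`. -/
structure Good (t0 t1 : ℚ) (U : Field) : Prop where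
  eff : ∀ j, Eff (fun p => U p j)
  cpt : HasCompactSupport U
  time : ∀ p : P, p.1 ∉ Set.Icc (t0 : ℝ) t1 → U p = 0
  div : ∀ p, spaceDiv U p = 0

theorem Good.smooth {t0 t1 : ℚ} {U : Field} (h : Good t0 t1 U) : ContDiff ℝ ∞ U :=
  contDiff_pi.2 fun j => (h.eff j).smooth

theorem Good.zero (t0 t1 : ℚ) : Good t0 t1 (fun _ => 0) where
  eff := fun _ => Eff.zero
  cpt := HasCompactSupport.zero
  time := fun _ _ => rfl
  div := fun p => by simp [spaceDiv]

theorem Good.mono {t0 t1 s0 s1 : ℚ} {U : Field} (h : Good t0 t1 U) (h0 : s0 ≤ t0) (h1 : t1 ≤ s1) :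
    Good s0 s1 U where
  eff := h.eff
  cpt := h.cpt
  time := fun p hp => h.time p fun hp' =>
    hp ⟨le_trans (by exact_mod_cast h0) hp'.1, le_trans hp'.2 (by exact_mod_cast h1)⟩
  div := h.div

theorem Good.add {t0 t1 : ℚ} {U W : Field} (hU : Good t0 t1 U) (hW : Good t0 t1 W) :
    Good t0 t1 (fun p => U p + W p) where
  eff := fun j => (hU.eff j).add (hW.eff j)
  cpt := hU.cpt.add hW.cpt
  time := fun p hp => by rw [hU.time p hp, hW.time p hp, add_zero]
  div := fun p => by
    have h1 := hU.div p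
    have h2 := hW.div p
    unfold spaceDiv at *
    rw [fderiv_fun_add ((hU.smooth.differentiable (by simp)) p)
      ((hW.smooth.differentiable (by simp)) p)]
    simp only [add_apply, Pi.add_apply, Finset.sum_add_distrib, h1, h2,
      add_zero]

theorem Good.sum {t0 t1 : ℚ} {ι : Type*} (s : Finset ι) {U : ι → Field}
    (hU : ∀ i ∈ s, Good t0 t1 (U i)) : Good t0 t1 (fun p => ∑ i ∈ s, U i p) := by
  classical
  induction s using Finset.induction_on with
  | empty => simpa using Good.zero t0 t1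
  | insert a s ha ih =>
    simp only [Finset.sum_insert ha]
    exact (hU a (Finset.mem_insert_self _ _)).add
      (ih fun i hi => hU i (Finset.mem_insert_of_mem hi))

/-- A trajectory of `U` goes from `x` (up to time `t0`) to `y` (from time `t1` on). -/
def Carries (U : Field) (t0 t1 : ℚ) (x y : V) : Prop :=
  ∃ γ : ℝ → V, (∀ t : ℝ, t ≤ t0 → γ t = x) ∧ (∀ t : ℝ, (t1 : ℝ) ≤ t → γ t = y) ∧
    ∀ t, HasDerivAt γ (U (t, γ t)) t

/-- The maps `T i` on the sets `K i` are realised simultaneously by a good field in any window. -/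
def Rl {ι : Type*} (K : ι → Set V) (T : ι → V → V) : Prop :=
  ∀ t0 t1 : ℚ, t0 < t1 → ∃ U, Good t0 t1 U ∧ ∀ i, ∀ x ∈ K i, Carries U t0 t1 x (T i x)

theorem Rl.congr {ι : Type*} {K : ι → Set V} {T T' : ι → V → V} (h : Rl K T)
    (hT : ∀ i, ∀ x ∈ K i, T i x = T' i x) : Rl K T' := by
  intro t0 t1 ht
  obtain ⟨U, hU, hc⟩ := h t0 t1 ht
  exact ⟨U, hU, fun i x hx => hT i x hx ▸ hc i x hx⟩

theorem Rl.mono {ι : Type*} {K K' : ι → Set V} {T : ι → V → V} (h : Rl K T)
    (hK : ∀ i, K' i ⊆ K i) : Rl K' T := by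
  intro t0 t1 ht
  obtain ⟨U, hU, hc⟩ := h t0 t1 ht
  exact ⟨U, hU, fun i x hx => hc i x (hK i hx)⟩

theorem Rl.comp {ι : Type*} {K K' : ι → Set V} {T T' : ι → V → V} (h : Rl K T) (h' : Rl K' T')
    (hK : ∀ i, ∀ x ∈ K i, T i x ∈ K' i) : Rl K (fun i x => T' i (T i x)) := by
  intro t0 t1 ht
  set m1 : ℚ := (2 * t0 + t1) / 3
  set m2 : ℚ := (t0 + 2 * t1) / 3
  have h01 : t0 < m1 := by simp only [m1]; linarith
  have h12 : m1 < m2 := by simp only [m1, m2]; linarith
  have h23 : m2 < t1 := by simp only [m2]; linarith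
  obtain ⟨U, hU, hc⟩ := h t0 m1 h01
  obtain ⟨W, hW, hc'⟩ := h' m2 t1 h23
  have h01' : (t0 : ℝ) < m1 := by exact_mod_cast h01
  have h12' : (m1 : ℝ) < m2 := by exact_mod_cast h12
  have h23' : (m2 : ℝ) < t1 := by exact_mod_cast h23
  refine ⟨fun p => U p + W p, (hU.mono le_rfl (by linarith)).add (hW.mono (by linarith) le_rfl),
    fun i x hx => ?_⟩
  obtain ⟨γ, hγ0, hγ1, hγ⟩ := hc i x hx
  obtain ⟨η, hη0, hη1, hη⟩ := hc' i (T i x) (hK i x hx)
  refine ⟨fun t => γ t + η t - T i x, fun t ht => ?_, fun t ht => ?_, fun t => ?_⟩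
  · simp only [hγ0 t ht, hη0 t (by linarith), add_sub_cancel_right]
  · simp only [hγ1 t (by linarith), hη1 t ht, add_sub_cancel_left]
  · have hd := ((hγ t).add (hη t)).sub_const (T i x)
    rcases lt_or_ge t m2 with h1 | h1
    · have hW0 : ∀ y, W (t, y) = 0 := fun y => hW.time _ fun hp => absurd hp.1 (not_le.2 h1)
      simp only [hW0, hη0 t h1.le, add_sub_cancel_right] at hd ⊢
      exact hd
    · have hU0 : ∀ y, U (t, y) = 0 := fun y =>
        hU.time _ fun hp => absurd hp.2 (not_le.2 (by linarith))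
      simp only [hU0, hγ1 t (by linarith), add_sub_cancel_left] at hd ⊢
      exact hd

/-- Global existence of trajectories. -/
theorem Good.exists_traj {U : Field} (hU : Good (1 / 4) (3 / 4) U) (x : V) :
    ∃ γ : ℝ → V, γ 0 = x ∧ ∀ t, HasDerivAt γ (U (t, γ t)) t := by
  obtain ⟨K, hK⟩ := hU.smooth.lipschitzWith_of_hasCompactSupport hU.cpt (by simp)
  obtain ⟨C, hC⟩ := hU.cpt.exists_bound_of_continuous hU.smooth.continuous
  have hC0 : 0 ≤ C := (norm_nonneg _).trans (hC 0)
  have hPL : IsPicardLindelof (fun t y => U (t, y)) (tmin := 0) (tmax := 1)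
      ⟨0, by simp⟩ x ⟨C, hC0⟩ 0 ⟨C, hC0⟩ K := by
    refine ⟨fun t _ => ?_, fun y _ => ?_, fun t _ y _ => hC _, by simp⟩
    · have := hK.comp (LipschitzWith.prodMk_left (α := ℝ) (β := V) t)
      rw [mul_one] at this
      exact this.lipschitzOnWith
    · exact (hU.smooth.continuous.comp (by fun_prop)).continuousOn
  obtain ⟨α, hα0, hα⟩ := hPL.exists_eq_forall_mem_Icc_hasDerivWithinAt₀
  have hz0 : ∀ t : ℝ, t ≤ 0 → ∀ y, U (t, y) = 0 := fun t ht y =>
    hU.time _ fun hp => by have := hp.1; push_cast at this; linarith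
  have hz1 : ∀ t : ℝ, 1 ≤ t → ∀ y, U (t, y) = 0 := fun t ht y =>
    hU.time _ fun hp => by have := hp.2; push_cast at this; linarith
  set γ : ℝ → V := fun t => α (max 0 (min t 1)) with hγ
  have hL : ∀ t : ℝ, t ≤ 0 → HasDerivWithinAt γ (U (t, γ t)) (Set.Iic 0) t := fun t ht => by
    rw [hz0 t ht]
    refine (hasDerivWithinAt_const t _ (α 0)).congr (fun s hs => ?_) ?_
    · simp only [hγ]; rw [max_eq_left (min_le_of_left_le hs)]
    · simp only [hγ]; rw [max_eq_left (min_le_of_left_le ht)]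
  have hR : ∀ t : ℝ, 1 ≤ t → HasDerivWithinAt γ (U (t, γ t)) (Set.Ici 1) t := fun t ht => by
    rw [hz1 t ht]
    refine (hasDerivWithinAt_const t _ (α 1)).congr (fun s hs => ?_) ?_
    · simp only [hγ]; rw [min_eq_right hs, max_eq_right zero_le_one]
    · simp only [hγ]; rw [min_eq_right ht, max_eq_right zero_le_one]
  have hM : ∀ t ∈ Set.Icc (0 : ℝ) 1, HasDerivWithinAt γ (U (t, γ t)) (Set.Icc 0 1) t := by
    intro t ht
    have e : ∀ s ∈ Set.Icc (0 : ℝ) 1, γ s = α s := fun s hs => by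
      simp only [hγ]; rw [min_eq_left hs.2, max_eq_right hs.1]
    rw [e t ht]
    exact (hα t ht).congr e (e t ht)
  refine ⟨γ, by simpa [hγ] using hα0, fun t => ?_⟩
  rcases lt_trichotomy t 0 with h | rfl | h
  · exact (hL t h.le).hasDerivAt (Iic_mem_nhds h)
  · refine ((hL 0 le_rfl).union (hM 0 (by simp))).hasDerivAt ?_
    rw [Set.Iic_union_Icc_eq_Iic zero_le_one]
    exact Iic_mem_nhds zero_lt_one
  rcases lt_trichotomy t 1 with h' | rfl | h'
  · exact (hM t ⟨h.le, h'.le⟩).hasDerivAt (Icc_mem_nhds h h')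
  · refine ((hM 1 (by simp)).union (hR 1 le_rfl)).hasDerivAt ?_
    rw [Set.Icc_union_Ici_eq_Ici zero_le_one]
    exact Ici_mem_nhds zero_lt_one
  · exact (hR t h'.le).hasDerivAt (Ici_mem_nhds h')

/-! ### Stream functions -/

theorem direction_succ (j : Fin 3) : direction j.succ = (0, Pi.single j 1) := by
  simp [direction, Fin.succ_ne_zero]

theorem direction_zero : direction 0 = (1, 0) := by simp [direction]

theorem pd_comm {f : P → ℝ} (hf : ContDiff ℝ ∞ f) (a b : Fin 4) (p : P) :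
    pd a (pd b f) p = pd b (pd a f) p := by
  have hd : DifferentiableAt ℝ (fderiv ℝ f) p :=
    ((hf.fderiv_right (m := ∞) (by simp)).differentiable (by simp)) p
  have e : ∀ a b : Fin 4, pd a (pd b f) p = fderiv ℝ (fderiv ℝ f) p (direction a) (direction b) := by
    intro a b
    unfold pd
    rw [fderiv_clm_apply hd (differentiableAt_const _)]
    simp
  rw [e, e]
  have hs : IsSymmSndFDerivAt ℝ f p :=
    hf.contDiffAt.isSymmSndFDerivAt (by simpa using natCast_le_infty 2)
  exact hs _ _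

/-- The divergence-free field of a stream function in the `(j, k)` plane. -/
noncomputable def strm (j k : Fin 3) (Ψ : P → ℝ) : Field := fun p l =>
  pd k.succ Ψ p * (Pi.single j (1 : ℝ) : V) l - pd j.succ Ψ p * (Pi.single k (1 : ℝ) : V) l

theorem pd_congr {Ψ Ψ' : P → ℝ} {p : P} (h : Ψ =ᶠ[𝓝 p] Ψ') (d : Fin 4) : pd d Ψ p = pd d Ψ' p := by
  unfold pd; rw [h.fderiv_eq]

theorem strm_congr {Ψ Ψ' : P → ℝ} {p : P} (h : Ψ =ᶠ[𝓝 p] Ψ') (j k : Fin 3) :
    strm j k Ψ p = strm j k Ψ' p := by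
  funext l; unfold strm; rw [pd_congr h, pd_congr h]

theorem strm_eq_zero {Ψ : P → ℝ} {p : P} (h : Ψ =ᶠ[𝓝 p] fun _ => 0) (j k : Fin 3) :
    strm j k Ψ p = 0 := by
  rw [strm_congr h]; funext l; simp [strm, pd]

theorem eff_single (j l : Fin 3) : Eff (fun _ => (Pi.single j (1 : ℝ) : V) l) := by
  by_cases h : l = j
  · subst h; simpa using Eff.one
  · simpa [Pi.single_eq_of_ne h] using Eff.zero

theorem good_strm {t0 t1 : ℚ} {Ψ : P → ℝ} (hΨ : Eff Ψ) (hc : HasCompactSupport Ψ)
    (ht : ∀ p : P, p.1 ∉ Set.Icc (t0 : ℝ) t1 → Ψ p = 0) (j k : Fin 3) :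
    Good t0 t1 (strm j k Ψ) where
  eff := fun l => ((hΨ.pd _).mul (eff_single j l)).sub ((hΨ.pd _).mul (eff_single k l))
  cpt := HasCompactSupport.intro hc.isCompact fun p hp =>
    strm_eq_zero (notMem_tsupport_iff_eventuallyEq.1 hp) j k
  time := fun p hp => by
    refine strm_eq_zero ?_ j k
    have ho : IsOpen {p : P | p.1 ∉ Set.Icc (t0 : ℝ) t1} :=
      isClosed_Icc.isOpen_compl.preimage continuous_fst
    filter_upwards [ho.mem_nhds hp] with q hq using ht q hq
  div := fun p => by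
    have h1 : ∀ d, DifferentiableAt ℝ (pd d Ψ) p := fun d =>
      ((pd_contDiff hΨ.smooth d).differentiable (by simp)) p
    have h2 : ∀ l, DifferentiableAt ℝ (fun p => strm j k Ψ p l) p := fun l =>
      ((h1 _).mul_const _).sub ((h1 _).mul_const _)
    have h3 : ∀ l, fderiv ℝ (strm j k Ψ) p (0, Pi.single l 1) l =
        pd l.succ (pd k.succ Ψ) p * (Pi.single j (1 : ℝ) : V) l -
          pd l.succ (pd j.succ Ψ) p * (Pi.single k (1 : ℝ) : V) l := by
      intro l
      have e : strm j k Ψ = fun p l => strm j k Ψ p l := rfl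
      rw [e, fderiv_pi h2]
      simp only [ContinuousLinearMap.pi_apply, strm]
      rw [fderiv_fun_sub ((h1 _).mul_const _) ((h1 _).mul_const _), fderiv_mul_const (h1 _),
        fderiv_mul_const (h1 _)]
      simp only [sub_apply, smul_apply, smul_eq_mul]
      rw [← direction_succ]
      unfold pd
      ring
    unfold spaceDiv
    simp only [h3, Finset.sum_sub_distrib, Pi.single_apply, mul_ite, mul_one, mul_zero,
      Finset.sum_ite_eq', Finset.mem_univ, if_true]
    rw [pd_comm hΨ.smooth, sub_self]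

end Crest.Agent.R126
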